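import Vale.Agent.P072.Bounds

/-!
# A compact absorbing set in each stoichiometric class
-/

namespace Vale.Agent.P072

open Finset Real Set

noncomputable section

variable {d : ℕ} {R : Finset ((Fin d → ℕ) × (Fin d → ℕ))} {k : (Fin d → ℕ) × (Fin d → ℕ) → ℝ}

/-- a global trajectory in the class of `c`, inside some box -/
def Traj (R : Finset ((Fin d → ℕ) × (Fin d → ℕ))) (k : (Fin d → ℕ) × (Fin d → ℕ) → ℝ)
    (c : Fin d → ℝ) (x : ℝ → Fin d → ℝ) : Prop :=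
  IsSolutionOn R k x (Ici 0) ∧ x 0 - c ∈ stoich R ∧
    ∃ lo > (0 : ℝ), ∃ hi : ℝ, ∀ t ≥ (0 : ℝ), ∀ i, lo ≤ x t i ∧ x t i ≤ hi

lemma Traj.pos {c : Fin d → ℝ} {x : ℝ → Fin d → ℝ} (h : Traj R k c x) {t : ℝ} (ht : 0 ≤ t)
    (i : Fin d) : 0 < x t i := by
  obtain ⟨-, -, lo, hlo, hi, hb⟩ := h
  exact lt_of_lt_of_le hlo (hb t ht i).1

lemma Traj.mem_class {c : Fin d → ℝ} {x : ℝ → Fin d → ℝ} (h : Traj R k c x) {t : ℝ} (ht : 0 ≤ t) :
    x t - c ∈ stoich R := by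
  have h1 := sol_class (h.1.mono (fun s (hs : s ∈ Icc 0 t) => (hs.1 : s ∈ Ici (0 : ℝ)))) ht
  have e : x t - c = (x t - x 0) + (x 0 - c) := by abel
  rw [e]
  exact Submodule.add_mem _ h1 h.2.1

lemma Traj.gmin {c : Fin d → ℝ} {x : ℝ → Fin d → ℝ} (h : Traj R k c x) :
    ∃ g > (0 : ℝ), ∀ t ≥ (0 : ℝ), ∀ e ∈ R,
      g ≤ ∏ j, x t j ^ e.1 j ∧ g ≤ ∏ j, x t j ^ e.2 j := by
  obtain ⟨-, -, lo, hlo, hi, hb⟩ := h
  obtain ⟨g, hg, hg'⟩ := exists_min_pos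
    (fun e : {e // e ∈ R} => min (∏ j, lo ^ e.1.1 j) (∏ j, lo ^ e.1.2 j))
    (fun e => lt_min (Finset.prod_pos fun j _ => pow_pos hlo _)
      (Finset.prod_pos fun j _ => pow_pos hlo _))
  refine ⟨g, hg, fun t ht e he => ⟨?_, ?_⟩⟩
  · refine le_trans ((hg' ⟨e, he⟩).trans (min_le_left _ _)) ?_
    exact Finset.prod_le_prod (fun j _ => (pow_pos hlo _).le)
      (fun j _ => pow_le_pow_left₀ hlo.le (hb t ht j).1 _)
  · refine le_trans ((hg' ⟨e, he⟩).trans (min_le_right _ _)) ?_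
    exact Finset.prod_le_prod (fun j _ => (pow_pos hlo _).le)
      (fun j _ => pow_le_pow_left₀ hlo.le (hb t ht j).1 _)

lemma Vsup_ge_neg {Z : Finset (Fin d)} {B : ℝ} (D : FaceData R k Z B) {x : Fin d → ℝ}
    (hx : ∀ i, 0 < x i) : -(Z.card : ℝ) ≤ Vsup D.Feas (res Z x) := by
  have h := diag_le D.nice (res_pos (Z := Z) hx) (s := 0) (Or.inl rfl)
  simpa using h

/-- eventually all coordinates are bounded, uniformly in the class -/
lemma eventually_bounded (hk : ∀ e ∈ R, 0 < k e) (hwr : WeaklyReversible R) (c : Fin d → ℝ)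
    (hc : ∀ i, 0 < c i) :
    ∃ E : ℝ, ∀ x, Traj R k c x → ∃ T ≥ (0 : ℝ), ∀ t ≥ T, ∀ i, x t i ≤ E := by
  obtain ⟨D⟩ := exists_faceData R k hk hwr Finset.univ 0
  obtain ⟨Λ, hΛ⟩ : ∃ Λ, Λ = Vsup D.Feas (res Finset.univ c) := ⟨_, rfl⟩
  refine ⟨(Λ + 1 + (d : ℝ) * exp D.S0) / D.S0, fun x hx => ?_⟩
  have hout : ∀ t : ℝ, ∀ j, j ∉ (Finset.univ : Finset (Fin d)) → |log (x t j)| ≤ 0 :=
    fun t j hj => absurd (Finset.mem_univ j) hj
  have hsol : ∀ a b : ℝ, 0 ≤ a → IsSolutionOn R k x (Icc a b) := fun a b ha =>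
    hx.1.mono fun t ht => (ha.trans ht.1 : 0 ≤ t)
  obtain ⟨g, hg, hg'⟩ := hx.gmin
  obtain ⟨T, hT, hTle⟩ : ∃ T ≥ (0 : ℝ), Vsup D.Feas (res Finset.univ (x T)) ≤ Λ + 1 := by
    by_contra hcon
    simp only [not_exists, not_and, not_le, ge_iff_le] at hcon
    have hgap : 0 < D.κ * g := mul_pos D.κpos hg
    obtain ⟨v0, hv0⟩ : ∃ v0, v0 = Vsup D.Feas (res Finset.univ (x 0)) := ⟨_, rfl⟩
    obtain ⟨t, ht⟩ : ∃ t, t = (|v0| + (d : ℝ) + 1) / (D.κ * g) := ⟨_, rfl⟩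
    have ht0 : 0 ≤ t := by rw [ht]; positivity
    have h := face_strict D (gmin := g) (Λ := Λ) (θ := 1) ht0 (hsol 0 t le_rfl)
      (fun s hs => hx.pos hs.1) (fun s _ => hout s) hg.le (fun s hs => hg' s hs.1)
      (fun s hs p hp hall _ _ => by
        rw [show p = (p.1, p.2) from rfl, val_flat hall (hx.mem_class hs.1), hΛ]
        exact val_le_Vsup D.nice (res_pos hc) hp)
      one_pos (fun s hs => (hcon s hs.1).le)
    have h2 := Vsup_ge_neg D (hx.pos ht0)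
    rw [Finset.card_univ, Fintype.card_fin] at h2
    have h3 : D.κ * g * (t - 0) = |v0| + (d : ℝ) + 1 := by
      rw [ht, sub_zero, mul_div_cancel₀ _ hgap.ne']
    rw [← hv0] at h
    linarith [le_abs_self v0]
  refine ⟨T, hT, fun t ht i => bound_of_Vsup D (hx.pos (hT.trans ht)) ?_ i⟩
  exact le_trans (face_noninc D ht (hsol T t hT) (fun s hs => hx.pos (hT.trans hs.1))
    (fun s _ => hout s)) hTle

/-- the persistence step, uniform in the class -/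
lemma eventually_lower (hk : ∀ e ∈ R, 0 < k e) (hwr : WeaklyReversible R) (c : Fin d → ℝ)
    (hc : ∀ i, 0 < c i) {E : ℝ}
    (hE : ∀ x, Traj R k c x → ∃ T ≥ (0 : ℝ), ∀ t ≥ T, ∀ i, x t i ≤ E)
    (Z : Finset (Fin d)) (hZ : Z.Nonempty) {δ' : ℝ} (hδ' : 0 < δ')
    (hins : ∀ j, j ∉ Z → ∀ x, Traj R k c x → ∃ T ≥ (0 : ℝ), ∀ t ≥ T,
      ∃ i ∈ insert j Z, δ' ≤ x t i) :
    ∃ δ > (0 : ℝ), ∀ x, Traj R k c x → ∃ T ≥ (0 : ℝ), ∀ t ≥ T, ∃ i ∈ Z, δ ≤ x t i := by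
  classical
  obtain ⟨D⟩ := exists_faceData R k hk hwr Z (|log δ'| + |log E|)
  have hn : (0 : ℝ) < Z.card := by exact_mod_cast Finset.card_pos.mpr hZ
  obtain ⟨κc, hκdef⟩ : ∃ κc, κc = ∑ i, res Z c i := ⟨_, rfl⟩
  have hκ : 0 < κc := by
    rw [hκdef]
    obtain ⟨i, hi⟩ := hZ
    exact lt_of_lt_of_le (hc i) (Finset.single_le_sum (f := fun i => res Z c i)
      (fun j _ => (hc j).le) (Finset.mem_univ (⟨i, hi⟩ : {i // i ∈ Z})))
  obtain ⟨ρ, hρ, hρS, hρC, hρδ, hρκ⟩ : ∃ ρ > (0 : ℝ), ρ ≤ exp (-D.S0) ∧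
      ρ ≤ exp (-(D.C + 1)) ∧ ρ < δ' ∧ ρ ≤ (κc / (6 * (Z.card : ℝ))) ^ 2 := by
    refine ⟨min (min (exp (-D.S0)) (exp (-(D.C + 1))))
      (min (δ' / 2) ((κc / (6 * (Z.card : ℝ))) ^ 2)), ?_, ?_, ?_, ?_, ?_⟩
    · exact lt_min (lt_min (exp_pos _) (exp_pos _)) (lt_min (half_pos hδ') (by positivity))
    · exact (min_le_left _ _).trans (min_le_left _ _)
    · exact (min_le_left _ _).trans (min_le_right _ _)
    · exact lt_of_le_of_lt ((min_le_right _ _).trans (min_le_left _ _)) (half_lt_self hδ')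
    · exact (min_le_right _ _).trans (min_le_right _ _)
  refine ⟨min ρ ((ρ / (3 * (Z.card : ℝ))) ^ 2), lt_min hρ (by positivity), fun x hx => ?_⟩
  have hsol : ∀ a b : ℝ, 0 ≤ a → IsSolutionOn R k x (Icc a b) := fun a b ha =>
    hx.1.mono fun t ht => (ha.trans ht.1 : 0 ≤ t)
  -- a time after which all larger sets are good and everything is bounded
  obtain ⟨TE, hTE0, hTE⟩ := hE x hx
  have hj : ∀ j : {j // j ∉ Z}, ∃ T ≥ (0 : ℝ), ∀ t ≥ T, ∃ i ∈ insert j.1 Z, δ' ≤ x t i :=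
    fun j => hins j.1 j.2 x hx
  choose Tj hTj0 hTj using hj
  obtain ⟨T0, hT0E, hT0j⟩ : ∃ T0, TE ≤ T0 ∧ ∀ j, Tj j ≤ T0 :=
    ⟨TE + ∑ j, Tj j, le_add_of_nonneg_right (Finset.sum_nonneg fun j _ => hTj0 j), fun j =>
      le_trans (Finset.single_le_sum (fun j _ => hTj0 j) (Finset.mem_univ j))
        (le_add_of_nonneg_left hTE0)⟩
  have hT00 : 0 ≤ T0 := hTE0.trans hT0E
  have hout : ∀ t ≥ T0, (∀ i ∈ Z, x t i ≤ ρ) → ∀ j, j ∉ Z → |log (x t j)| ≤ |log δ'| + |log E| :=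
    fun t ht hsmall => outside_bound hδ' hρδ (hTE t (hT0E.trans ht)) hsmall
      fun j hj => hTj ⟨j, hj⟩ t ((hT0j _).trans ht)
  obtain ⟨g, hg, hg'⟩ := hx.gmin
  obtain ⟨T, hT, i1, hi1, hbig⟩ : ∃ T ≥ T0, ∃ i ∈ Z, ρ ≤ x T i := by
    by_contra hcon
    simp only [not_exists, not_and, not_le, ge_iff_le] at hcon
    have hgap : 0 < D.κ * g := mul_pos D.κpos hg
    obtain ⟨v0, hv0⟩ : ∃ v0, v0 = Vsup D.Feas (res Z (x T0)) := ⟨_, rfl⟩
    obtain ⟨t, ht⟩ : ∃ t, t = T0 + (|v0| + (Z.card : ℝ) + 1) / (D.κ * g) := ⟨_, rfl⟩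
    have ht0 : T0 ≤ t := by rw [ht]; exact le_add_of_nonneg_right (by positivity)
    have hflat : ∀ s ∈ Icc T0 t, ∀ p ∈ D.Feas,
        (∀ e ∈ R, pot Z p.1 e.2 = pot Z p.1 e.1) →
        (∀ i : {i // i ∈ Z}, |log (x s i) - p.1 i| ≤ D.C) →
        (∀ i : {i // i ∈ Z}, p.1 i = 0 ∨ 1 ≤ |p.1 i|) → val (res Z (x s)) p ≤ -κc := by
      intro s hs p hp hall hC hdich
      rw [show p = (p.1, p.2) from rfl, val_flat hall (hx.mem_class (hT00.trans hs.1))]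
      have hμ : ∀ i, p.1 i ≤ -1 := by
        intro i
        have h1 := log_le_log (hx.pos (hT00.trans hs.1) i) ((hcon s hs.1 i i.2).le.trans hρC)
        rw [log_exp] at h1
        have h2 := (abs_le.mp (hC i)).1
        rcases hdich i with h | h
        · linarith
        · rcases le_abs'.mp h with h | h <;> linarith
      have hq : 0 ≤ p.2 :=
        le_trans (mul_nonneg D.nice.pos.le (Finset.sum_nonneg fun i _ => (exp_pos _).le))
          (D.nice.low p hp)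
      have hsum : ∑ i, res Z c i * p.1 i ≤ ∑ i, -res Z c i :=
        Finset.sum_le_sum fun i _ => by
          have := mul_le_mul_of_nonneg_left (hμ i) (res_pos (Z := Z) hc i).le
          linarith
      rw [Finset.sum_neg_distrib, ← hκdef] at hsum
      unfold val
      linarith
    have hhigh : ∀ s ∈ Icc T0 t, -κc + κc / 2 ≤ Vsup D.Feas (res Z (x s)) := by
      intro s hs
      have h1 := Vsup_small_lower D (fun i => hx.pos (hT00.trans hs.1) i) hρ hρS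
        (fun i hi => (hcon s hs.1 i hi).le)
      have h2 : √ρ ≤ κc / (6 * (Z.card : ℝ)) := by
        refine (Real.sqrt_le_sqrt hρκ).trans ?_
        rw [Real.sqrt_sq (by positivity)]
      rw [le_div_iff₀ (by positivity)] at h2
      linarith
    have h := face_strict D (gmin := g) (Λ := -κc) (θ := κc / 2) ht0 (hsol T0 t hT00)
      (fun s hs => hx.pos (hT00.trans hs.1))
      (fun s hs => hout s hs.1 (fun i hi => (hcon s hs.1 i hi).le)) hg.le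
      (fun s hs => hg' s (hT00.trans hs.1)) hflat (half_pos hκ) hhigh
    have h2 := Vsup_ge_neg D (hx.pos (hT00.trans ht0))
    have h3 : D.κ * g * (t - T0) = |v0| + (Z.card : ℝ) + 1 := by
      rw [ht, add_sub_cancel_left, mul_div_cancel₀ _ hgap.ne']
    rw [← hv0] at h
    linarith [le_abs_self v0]
  refine ⟨T, hT00.trans hT, fun t ht => ?_⟩
  exact face_lower D ht (hsol T t (hT00.trans hT))
    (fun s hs => hx.pos ((hT00.trans hT).trans hs.1)) hρ hρS hρC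
    (fun s hs => hout s (hT.trans hs.1)) ⟨i1, hi1, hbig⟩ t (right_mem_Icc.mpr ht)

/-- eventually the trajectory is in a fixed box -/
theorem absorb (hk : ∀ e ∈ R, 0 < k e) (hwr : WeaklyReversible R) (c : Fin d → ℝ)
    (hc : ∀ i, 0 < c i) :
    ∃ δ > (0 : ℝ), ∃ E : ℝ, ∀ x, Traj R k c x →
      ∃ T ≥ (0 : ℝ), ∀ t ≥ T, ∀ i, δ ≤ x t i ∧ x t i ≤ E := by
  classical
  obtain ⟨E, hE⟩ := eventually_bounded hk hwr c hc
  have hdown := downward
    (fun Z δ => ∀ x, Traj R k c x → ∃ T ≥ (0 : ℝ), ∀ t ≥ T, ∃ i ∈ Z, δ ≤ x t i)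
    (fun Z δ δ' h hle x hx => by
      obtain ⟨T, hT, h'⟩ := h x hx
      refine ⟨T, hT, fun t ht => ?_⟩
      obtain ⟨i, hi, hi'⟩ := h' t ht
      exact ⟨i, hi, hle.trans hi'⟩)
    (fun Z hZ δ' hδ' hins => eventually_lower hk hwr c hc hE Z hZ hδ' hins)
  have hsingle := fun i : Fin d => hdown {i} (Finset.singleton_nonempty i)
  choose δ hδ hQ using hsingle
  obtain ⟨δ0, hδ0, hδ0'⟩ := exists_min_pos δ hδ
  refine ⟨δ0, hδ0, E, fun x hx => ?_⟩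
  obtain ⟨TE, hTE0, hTE⟩ := hE x hx
  choose T hT0 hT using fun i => hQ i x hx
  have hsum : 0 ≤ ∑ i, T i := Finset.sum_nonneg fun i _ => hT0 i
  refine ⟨TE + ∑ i, T i, add_nonneg hTE0 hsum, fun t ht i => ⟨?_, hTE t (by linarith) i⟩⟩
  obtain ⟨j, hj, hj'⟩ := hT i t (by
    have := Finset.single_le_sum (fun j _ => hT0 j) (Finset.mem_univ i)
    linarith)
  rw [Finset.mem_singleton.mp hj] at hj'
  exact (hδ0' i).trans hj'

end

end Vale.Agent.P072
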