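import Vale.Agent.P072.Traj

/-!
# A priori bounds and global existence
-/

namespace Vale.Agent.P072

open Finset Real Set

noncomputable section

variable {d : ℕ} {R : Finset ((Fin d → ℕ) × (Fin d → ℕ))} {k : (Fin d → ℕ) × (Fin d → ℕ) → ℝ}

/-- induction from the full index set downwards -/
lemma downward (P : Finset (Fin d) → ℝ → Prop) (mono : ∀ Z δ δ', P Z δ → δ' ≤ δ → P Z δ')
    (step : ∀ Z : Finset (Fin d), Z.Nonempty → ∀ δ' > 0,
      (∀ j, j ∉ Z → P (insert j Z) δ') → ∃ δ > 0, P Z δ) :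
    ∀ Z : Finset (Fin d), Z.Nonempty → ∃ δ > 0, P Z δ := by
  classical
  suffices h : ∀ n, ∀ Z : Finset (Fin d), Z.Nonempty → d - Z.card = n → ∃ δ > 0, P Z δ from
    fun Z hZ => h _ Z hZ rfl
  intro n
  induction n using Nat.strong_induction_on with
  | _ n ih =>
    intro Z hZ hn
    have hsub : ∀ j : {j // j ∉ Z}, ∃ δ > (0 : ℝ), P (insert j.1 Z) δ := by
      intro j
      refine ih (d - (insert j.1 Z).card) ?_ _ (Finset.insert_nonempty _ _) rfl
      have h1 := Finset.card_insert_of_notMem j.2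
      have h2 : (insert j.1 Z).card ≤ d := by simpa using Finset.card_le_univ (insert j.1 Z)
      omega
    choose δ hδ hP using hsub
    obtain ⟨δ', hδ', hle⟩ := exists_min_pos δ hδ
    exact step Z hZ δ' hδ' fun j hj => mono _ _ _ (hP ⟨j, hj⟩) (hle ⟨j, hj⟩)

lemma abs_log_le {x l u : ℝ} (hl : 0 < l) (h1 : l ≤ x) (h2 : x ≤ u) :
    |log x| ≤ |log l| + |log u| := by
  have hx : 0 < x := lt_of_lt_of_le hl h1
  have a1 := log_le_log hl h1
  have a2 := log_le_log hx h2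
  rw [abs_le]
  constructor <;>
    linarith [neg_abs_le (log l), le_abs_self (log u), abs_nonneg (log l), abs_nonneg (log u)]

/-- coordinates outside a small face have bounded logarithm -/
lemma outside_bound {Z : Finset (Fin d)} {x : Fin d → ℝ} {δ' E ρ : ℝ} (hδ : 0 < δ')
    (hρ : ρ < δ') (hE : ∀ j, x j ≤ E) (hsmall : ∀ i ∈ Z, x i ≤ ρ)
    (hins : ∀ j, j ∉ Z → ∃ i ∈ insert j Z, δ' ≤ x i) :
    ∀ j, j ∉ Z → |log (x j)| ≤ |log δ'| + |log E| := by
  intro j hj
  obtain ⟨i, hi, hi'⟩ := hins j hj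
  rcases Finset.mem_insert.mp hi with rfl | hi
  · exact abs_log_le hδ hi' (hE _)
  · linarith [hsmall i hi]

lemma sum_res_univ (x : Fin d → ℝ) : ∑ i, res Finset.univ x i = ∑ i, x i := by
  rw [← Finset.sum_coe_sort (Finset.univ : Finset (Fin d))]
  rfl

/-- boundedness: the whole function controls all coordinates -/
lemma bound_of_Vsup (D : FaceData R k Finset.univ 0) {x : Fin d → ℝ} (hx : ∀ i, 0 < x i) {v : ℝ}
    (hv : Vsup D.Feas (res Finset.univ x) ≤ v) (i : Fin d) :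
    x i ≤ (v + (d : ℝ) * exp D.S0) / D.S0 := by
  have h := diag_le D.nice (res_pos (Z := Finset.univ) hx) (s := D.S0) (Or.inr (le_abs_self _))
  rw [Fintype.card_coe, Finset.card_univ, Fintype.card_fin, sum_res_univ] at h
  rw [le_div_iff₀ (lt_of_lt_of_le one_pos D.nice.one_le)]
  have h1 : x i ≤ ∑ j, x j := Finset.single_le_sum (fun j _ => (hx j).le) (Finset.mem_univ i)
  have h2 := mul_le_mul_of_nonneg_right h1 (zero_le_one.trans D.nice.one_le)
  linarith

/-- a priori bounds depending only on the initial state -/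
theorem apriori (hk : ∀ e ∈ R, 0 < k e) (hwr : WeaklyReversible R) (x0 : Fin d → ℝ)
    (hx0 : ∀ i, 0 < x0 i) :
    ∃ lo > (0 : ℝ), ∃ hi : ℝ, ∀ T, ∀ x : ℝ → Fin d → ℝ, IsSolutionOn R k x (Icc 0 T) →
      (∀ t ∈ Icc 0 T, ∀ i, 0 < x t i) → x 0 = x0 → ∀ t ∈ Icc 0 T, ∀ i, lo ≤ x t i ∧ x t i ≤ hi := by
  classical
  obtain ⟨D⟩ := exists_faceData R k hk hwr Finset.univ 0
  obtain ⟨E, hE⟩ : ∃ E, E = (Vsup D.Feas (res Finset.univ x0) + (d : ℝ) * exp D.S0) / D.S0 :=
    ⟨_, rfl⟩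
  have hup : ∀ T, ∀ x : ℝ → Fin d → ℝ, IsSolutionOn R k x (Icc 0 T) →
      (∀ t ∈ Icc 0 T, ∀ i, 0 < x t i) → x 0 = x0 → ∀ t ∈ Icc 0 T, ∀ i, x t i ≤ E := by
    intro T x hsol hpos h0 t ht i
    rw [hE]
    refine bound_of_Vsup D (hpos t ht) ?_ i
    have hsub : Icc 0 t ⊆ Icc 0 T := Icc_subset_Icc le_rfl ht.2
    have := face_noninc D ht.1 (hsol.mono hsub) (fun s hs => hpos s (hsub hs))
      (fun s _ j hj => absurd (Finset.mem_univ j) hj)
    rwa [h0] at this
  obtain ⟨Q, hQ⟩ : ∃ Q : Finset (Fin d) → ℝ → Prop, Q = fun Z δ => ∀ T, ∀ x : ℝ → Fin d → ℝ,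
      IsSolutionOn R k x (Icc 0 T) → (∀ t ∈ Icc 0 T, ∀ i, 0 < x t i) → x 0 = x0 →
      ∀ t ∈ Icc 0 T, ∃ i ∈ Z, δ ≤ x t i := ⟨_, rfl⟩
  have hdown : ∀ Z : Finset (Fin d), Z.Nonempty → ∃ δ > 0, Q Z δ := by
    refine downward Q (fun Z δ δ' h hle => ?_) (fun Z hZ δ' hδ' hins => ?_)
    · rw [hQ] at h ⊢
      intro T x a b c t ht
      obtain ⟨i, hi, hi'⟩ := h T x a b c t ht
      exact ⟨i, hi, hle.trans hi'⟩
    · obtain ⟨DZ⟩ := exists_faceData R k hk hwr Z (|log δ'| + |log E|)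
      obtain ⟨i0, hi0⟩ := hZ
      obtain ⟨ρ0, hρ0, hρS, hρC, hρδ, hρx⟩ : ∃ ρ0 > (0 : ℝ), ρ0 ≤ exp (-DZ.S0) ∧
          ρ0 ≤ exp (-(DZ.C + 1)) ∧ ρ0 < δ' ∧ ρ0 ≤ x0 i0 := by
        refine ⟨min (min (exp (-DZ.S0)) (exp (-(DZ.C + 1)))) (min (δ' / 2) (x0 i0)), ?_, ?_, ?_, ?_, ?_⟩
        · exact lt_min (lt_min (exp_pos _) (exp_pos _)) (lt_min (half_pos hδ') (hx0 _))
        · exact (min_le_left _ _).trans (min_le_left _ _)
        · exact (min_le_left _ _).trans (min_le_right _ _)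
        · exact lt_of_le_of_lt ((min_le_right _ _).trans (min_le_left _ _)) (half_lt_self hδ')
        · exact (min_le_right _ _).trans (min_le_right _ _)
      refine ⟨min ρ0 ((ρ0 / (3 * (Z.card : ℝ))) ^ 2), lt_min hρ0 ?_, ?_⟩
      · have : 0 < Z.card := Finset.card_pos.mpr ⟨i0, hi0⟩
        positivity
      rw [hQ] at hins ⊢
      intro T x hsol hpos h0 t ht
      refine face_lower DZ (ht.1.trans ht.2) hsol hpos hρ0 hρS hρC ?_
        ⟨i0, hi0, by rw [h0]; exact hρx⟩ t ht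
      intro s hs hsmall
      exact outside_bound hδ' hρδ (hup T x hsol hpos h0 s hs) hsmall
        fun j hj => hins j hj T x hsol hpos h0 s hs
  have hsingle : ∀ i : Fin d, ∃ δ > 0, Q {i} δ := fun i => hdown _ (Finset.singleton_nonempty i)
  choose δ hδ hQδ using hsingle
  obtain ⟨lo, hlo, hlo'⟩ := exists_min_pos δ hδ
  refine ⟨lo, hlo, E, fun T x hsol hpos h0 t ht i => ⟨?_, hup T x hsol hpos h0 t ht i⟩⟩
  have h := hQδ i
  rw [hQ] at h
  obtain ⟨j, hj, hj'⟩ := h T x hsol hpos h0 t ht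
  rw [Finset.mem_singleton.mp hj] at hj'
  exact (hlo' i).trans hj'

/-- clamping to a box -/
def clampBox (l u : ℝ) (x : Fin d → ℝ) : Fin d → ℝ := fun i => max l (min u (x i))

lemma clampBox_mem {l u : ℝ} (h : l ≤ u) (x : Fin d → ℝ) :
    clampBox l u x ∈ Icc (fun _ : Fin d => l) (fun _ => u) :=
  ⟨fun _ => le_max_left _ _, fun _ => max_le h (min_le_left _ _)⟩

lemma clampBox_eq {l u : ℝ} {x : Fin d → ℝ} (h : ∀ i, l ≤ x i ∧ x i ≤ u) : clampBox l u x = x := by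
  funext i; simp [clampBox, h i]

lemma clampBox_lipschitz (l u : ℝ) : LipschitzWith 1 (clampBox l u : (Fin d → ℝ) → Fin d → ℝ) := by
  refine LipschitzWith.of_dist_le_mul fun x y => ?_
  rw [NNReal.coe_one, one_mul]
  refine (dist_pi_le_iff dist_nonneg).mpr fun i => ?_
  refine le_trans ?_ (dist_le_pi_dist x y i)
  simp only [clampBox, Real.dist_eq]
  calc |max l (min u (x i)) - max l (min u (y i))| ≤ |min u (x i) - min u (y i)| := by
        rw [max_comm l, max_comm l]; exact abs_max_sub_max_le_abs _ _ _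
    _ ≤ |x i - y i| := by
        simp only [min_def]
        split_ifs with h1 h2 h2 <;> rw [abs_le] <;> constructor <;>
          linarith [le_abs_self (x i - y i), neg_abs_le (x i - y i)]

lemma massAction_contDiff : ContDiff ℝ 1 (massAction R k) := by
  unfold massAction; fun_prop

/-- uniqueness of solutions -/
theorem sol_unique {x y : ℝ → Fin d → ℝ} {T : ℝ}
    (hx : IsSolutionOn R k x (Icc 0 T)) (hy : IsSolutionOn R k y (Icc 0 T)) (h0 : x 0 = y 0) :
    EqOn x y (Icc 0 T) := by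
  obtain ⟨M, hM⟩ := isCompact_Icc.exists_bound_of_continuousOn hx.continuousOn
  obtain ⟨M', hM'⟩ := isCompact_Icc.exists_bound_of_continuousOn hy.continuousOn
  obtain ⟨K, hK⟩ := (massAction_contDiff (R := R) (k := k)).contDiffOn.exists_lipschitzOnWith
    one_ne_zero (convex_closedBall (0 : Fin d → ℝ) (max M M')) (isCompact_closedBall _ _)
  have hder : ∀ (z : ℝ → Fin d → ℝ), IsSolutionOn R k z (Icc 0 T) → ∀ t ∈ Ico 0 T,
      HasDerivWithinAt z (massAction R k (z t)) (Ici t) t := fun z hz t ht =>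
    (hz t (Ico_subset_Icc_self ht)).mono_of_mem_nhdsWithin (Icc_mem_nhdsGE_of_mem ht)
  exact ODE_solution_unique_of_mem_Icc_right (v := fun _ => massAction R k)
    (s := fun _ => Metric.closedBall (0 : Fin d → ℝ) (max M M')) (fun _ _ => hK)
    hx.continuousOn (hder x hx)
    (fun t ht => mem_closedBall_zero_iff.mpr
      ((hM t (Ico_subset_Icc_self ht)).trans (le_max_left _ _)))
    hy.continuousOn (hder y hy)
    (fun t ht => mem_closedBall_zero_iff.mpr
      ((hM' t (Ico_subset_Icc_self ht)).trans (le_max_right _ _))) h0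

/-- existence on every finite interval, inside a fixed box -/
theorem exist_finite (hk : ∀ e ∈ R, 0 < k e) (hwr : WeaklyReversible R) (x0 : Fin d → ℝ)
    (hx0 : ∀ i, 0 < x0 i) :
    ∃ lo > (0 : ℝ), ∃ hi : ℝ, ∀ T ≥ (0 : ℝ), ∃ x : ℝ → Fin d → ℝ, x 0 = x0 ∧
      IsSolutionOn R k x (Icc 0 T) ∧ ∀ t ∈ Icc 0 T, ∀ i, lo ≤ x t i ∧ x t i ≤ hi := by
  classical
  obtain ⟨lo, hlo, hi, hap⟩ := apriori hk hwr x0 hx0
  refine ⟨lo, hlo, hi, fun T hT => ?_⟩
  -- the initial state lies in the box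
  have hbox0 : ∀ i, lo ≤ x0 i ∧ x0 i ≤ hi := by
    intro i
    refine hap 0 (fun _ => x0) (fun t ht => ?_) (fun _ _ => hx0) rfl 0 (left_mem_Icc.mpr le_rfl) i
    rw [Set.Icc_self, mem_singleton_iff] at ht
    subst ht
    rw [Set.Icc_self]
    exact HasFDerivWithinAt.of_subsingleton Set.subsingleton_singleton
  obtain ⟨l, hl⟩ : ∃ l, l = lo / 2 := ⟨_, rfl⟩
  obtain ⟨u, hu⟩ : ∃ u, u = max (2 * hi) lo := ⟨_, rfl⟩
  have hlu : l ≤ u := by
    have := le_max_right (2 * hi) lo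
    rw [hl, hu]; linarith
  obtain ⟨g, hg⟩ : ∃ g : (Fin d → ℝ) → (Fin d → ℝ),
      g = fun x => massAction R k (clampBox l u x) := ⟨_, rfl⟩
  obtain ⟨K, hK⟩ := (massAction_contDiff (R := R) (k := k)).contDiffOn.exists_lipschitzOnWith
    one_ne_zero (convex_Icc (fun _ : Fin d => l) (fun _ => u)) isCompact_Icc
  have hgK : LipschitzWith K g := by
    rw [hg]
    have := hK.comp ((clampBox_lipschitz (d := d) l u).lipschitzOnWith (s := Set.univ))
      (fun x _ => clampBox_mem hlu x)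
    rw [mul_one] at this
    exact lipschitzOnWith_univ.mp this
  obtain ⟨M, hM⟩ := (isCompact_Icc (a := fun _ : Fin d => l) (b := fun _ => u)
    ).exists_bound_of_continuousOn (massAction_continuous (R := R) (k := k)).continuousOn
  have hM' : ∀ x, ‖g x‖ ≤ max M 0 := fun x => by
    rw [hg]; exact (hM _ (clampBox_mem hlu x)).trans (le_max_left _ _)
  have hPL : IsPicardLindelof (fun _ => g) (⟨0, left_mem_Icc.mpr hT⟩ : Icc (0 : ℝ) T) x0
      (Real.toNNReal (max M 0 * T)) 0 (Real.toNNReal (max M 0)) K := by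
    refine IsPicardLindelof.of_time_independent (fun x _ => ?_) hgK.lipschitzOnWith ?_
    · rw [Real.coe_toNNReal _ (le_max_right _ _)]; exact hM' x
    · rw [Real.coe_toNNReal _ (le_max_right _ _),
        Real.coe_toNNReal _ (mul_nonneg (le_max_right _ _) hT)]
      simp [hT]
  obtain ⟨x, hx0', hxd⟩ := hPL.exists_eq_forall_mem_Icc_hasDerivWithinAt₀
  simp only at hx0'
  have hcont : ContinuousOn x (Icc 0 T) := fun t ht => (hxd t ht).continuousWithinAt
  -- as long as the solution stays in the box it solves the original equation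
  have hinside : ∀ τ ∈ Icc 0 T, (∀ t ∈ Icc 0 τ, ∀ i, l ≤ x t i ∧ x t i ≤ u) →
      IsSolutionOn R k x (Icc 0 τ) ∧ ∀ t ∈ Icc 0 τ, ∀ i, lo ≤ x t i ∧ x t i ≤ hi := by
    intro τ hτ hin
    have hsol : IsSolutionOn R k x (Icc 0 τ) := by
      intro t ht
      have h1 := (hxd t ⟨ht.1, ht.2.trans hτ.2⟩).mono (Icc_subset_Icc le_rfl hτ.2)
      simp only [hg, clampBox_eq (hin t ht)] at h1
      exact h1
    refine ⟨hsol, hap τ x hsol (fun t ht i => ?_) hx0'⟩
    have := (hin t ht i).1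
    linarith
  have hall : ∀ t ∈ Icc 0 T, ∀ i, l ≤ x t i ∧ x t i ≤ u := by
    by_contra hcon
    obtain ⟨Bad, hBad⟩ : ∃ Bad, Bad = ⋃ i : Fin d,
        Icc (0 : ℝ) T ∩ (fun t => x t i) ⁻¹' (Iic l ∪ Ici u) := ⟨_, rfl⟩
    have hci : ∀ i, ContinuousOn (fun t => x t i) (Icc 0 T) := fun i t ht =>
      (continuous_apply i).continuousAt.comp_continuousWithinAt (hcont t ht)
    have hclosed : IsClosed Bad := by
      rw [hBad]
      exact isClosed_iUnion_of_finite fun i =>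
        (hci i).preimage_isClosed_of_isClosed isClosed_Icc (isClosed_Iic.union isClosed_Ici)
    have hmem : ∀ t, t ∈ Bad ↔ ∃ i, t ∈ Icc 0 T ∧ (x t i ≤ l ∨ u ≤ x t i) := by
      intro t; rw [hBad]
      simp only [mem_iUnion, mem_inter_iff, Set.mem_preimage, Set.mem_union, Set.mem_Iic, Set.mem_Ici]
    have hne : Bad.Nonempty := by
      simp only [not_forall, not_and, not_le] at hcon
      obtain ⟨t, ht, i, hi'⟩ := hcon
      refine ⟨t, (hmem t).mpr ⟨i, ht, ?_⟩⟩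
      by_cases hh : l ≤ x t i
      · exact Or.inr (hi' hh).le
      · exact Or.inl (not_le.mp hh).le
    have hbdd : BddBelow Bad := ⟨0, fun t ht => ((hmem t).mp ht).choose_spec.1.1⟩
    obtain ⟨i, hτ, hbad⟩ := (hmem _).mp (hclosed.csInf_mem hne hbdd)
    have hbefore : ∀ t ∈ Icc 0 (sInf Bad), t < sInf Bad → ∀ j, l ≤ x t j ∧ x t j ≤ u := by
      intro t ht hlt j
      by_contra hh
      have : t ∈ Bad := (hmem t).mpr ⟨j, ⟨ht.1, ht.2.trans hτ.2⟩, by
        by_cases h1 : l ≤ x t j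
        · exact Or.inr (not_le.mp fun h2 => hh ⟨h1, h2⟩).le
        · exact Or.inl (not_le.mp h1).le⟩
      linarith [csInf_le hbdd this]
    have hτ0 : 0 < sInf Bad := by
      rcases lt_or_eq_of_le hτ.1 with h | h
      · exact h
      · exfalso
        rw [← h, hx0'] at hbad
        have h1 := hbox0 i
        rw [hl, hu] at hbad
        rcases hbad with hb | hb
        · linarith [hx0 i]
        · linarith [le_max_left (2 * hi) lo, hx0 i]
    have hbox : ∀ t ∈ Icc 0 (sInf Bad), ∀ j, l ≤ x t j ∧ x t j ≤ u := by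
      intro t ht j
      have hcl : IsClosed (Icc 0 (sInf Bad) ∩ (fun t => x t j) ⁻¹' Icc l u) :=
        ((hci j).mono (Icc_subset_Icc le_rfl hτ.2)).preimage_isClosed_of_isClosed isClosed_Icc
          isClosed_Icc
      have hsubset : Ico 0 (sInf Bad) ⊆
          Icc 0 (sInf Bad) ∩ (fun t => x t j) ⁻¹' Icc l u :=
        fun r hr => ⟨Ico_subset_Icc_self hr, hbefore r (Ico_subset_Icc_self hr) hr.2 j⟩
      have h2 := closure_minimal hsubset hcl
      rw [closure_Ico hτ0.ne] at h2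
      exact (h2 ht).2
    have h3 := (hinside _ hτ hbox).2 _ (right_mem_Icc.mpr hτ0.le) i
    rw [hl, hu] at hbad
    rcases hbad with hb | hb
    · linarith
    · linarith [le_max_left (2 * hi) lo]
  exact ⟨x, hx0', hinside T (right_mem_Icc.mpr hT) hall⟩

/-- global existence -/
theorem exist_global (hk : ∀ e ∈ R, 0 < k e) (hwr : WeaklyReversible R) (x0 : Fin d → ℝ)
    (hx0 : ∀ i, 0 < x0 i) :
    ∃ x : ℝ → Fin d → ℝ, ∃ lo > (0 : ℝ), ∃ hi : ℝ, x 0 = x0 ∧ IsSolutionOn R k x (Ici 0) ∧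
      ∀ t ≥ (0 : ℝ), ∀ i, lo ≤ x t i ∧ x t i ≤ hi := by
  classical
  obtain ⟨lo, hlo, hi, hex⟩ := exist_finite hk hwr x0 hx0
  have hex' : ∀ n : ℕ, ∃ x : ℝ → Fin d → ℝ, x 0 = x0 ∧ IsSolutionOn R k x (Icc 0 (n : ℝ)) ∧
      ∀ t ∈ Icc (0 : ℝ) n, ∀ i, lo ≤ x t i ∧ x t i ≤ hi := fun n => hex n (Nat.cast_nonneg n)
  choose y hy0 hysol hybox using hex'
  obtain ⟨N, hN⟩ : ∃ N : ℝ → ℕ, N = fun t => ⌈t⌉₊ + 1 := ⟨_, rfl⟩
  have hNlt : ∀ t, t < (N t : ℝ) := by
    intro t; rw [hN]; push_cast; linarith [Nat.le_ceil t]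
  have hagree : ∀ n m : ℕ, n ≤ m → EqOn (y n) (y m) (Icc 0 (n : ℝ)) := fun n m hnm =>
    sol_unique (hysol n)
      ((hysol m).mono (Icc_subset_Icc le_rfl (by exact_mod_cast hnm))) (by rw [hy0, hy0])
  have heq : ∀ n : ℕ, EqOn (fun t => y (N t) t) (y n) (Icc 0 (n : ℝ)) := by
    intro n t ht
    rcases le_total n (N t) with h | h
    · exact (hagree n (N t) h ht).symm
    · exact hagree (N t) n h ⟨ht.1, (hNlt t).le⟩
  refine ⟨fun t => y (N t) t, lo, hlo, hi, hy0 _, fun t ht => ?_,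
    fun t ht => hybox (N t) t ⟨ht, (hNlt t).le⟩⟩
  have hmem : t ∈ Icc (0 : ℝ) (N t) := ⟨ht, (hNlt t).le⟩
  have h1 : HasDerivWithinAt (fun t => y (N t) t) (massAction R k (y (N t) t))
      (Icc 0 (N t : ℝ)) t :=
    (hysol (N t) t hmem).congr (fun s hs => heq (N t) hs) (heq (N t) hmem)
  refine h1.mono_of_mem_nhdsWithin ?_
  rw [← Ici_inter_Iic]
  exact inter_mem_nhdsWithin _ (Iic_mem_nhds (hNlt t))

end

end Vale.Agent.P072
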