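import Vale.Agent.P072.Scale

/-!
# Near-maximisers follow the logarithm

If `m` nearly maximises `∑ y j * m j - wt j * exp (m j)` among admissible vectors (also after
permuting `y`), then every `m j` is within the current scale of `log (y j)`.
-/

namespace Vale.Agent.P072

open Finset Real

noncomputable section

variable (P : Par)

/-- the objective -/
def J (y m : ℕ → ℝ) : ℝ := ∑ j ∈ range P.d, (y j * m j - wt P m j * exp (m j))

/-- `m` is an `ε`-maximiser for `y`, also against transposed data -/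
def NearMax (y m : ℕ → ℝ) (ε : ℝ) : Prop :=
  ∀ m', Ok P m' → ∀ a < P.d, ∀ b < P.d, J P (y ∘ Equiv.swap a b) m' ≤ J P y m + ε

/-- number of thresholds -/
def Par.card : ℕ := (2 * P.Lam + 1) ^ (P.d + 1)

/-- a bound for the length of downward moves -/
def Par.T' : ℝ := (3 * (P.card : ℝ) + 1) * P.L ^ P.top

/-- the largeness conditions on `L` -/
structure Big : Prop where
  lam : 4 * (P.Lam : ℝ) ^ (P.d + 2) ≤ P.L
  big : 4 * ((P.d : ℝ) + 1) * P.T' ≤ exp (P.L - 1)

lemma one_le_T' : 1 ≤ P.T' := by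
  unfold Par.T'
  exact one_le_mul_of_one_le_of_one_le (by have : (0:ℝ) ≤ P.card := Nat.cast_nonneg _; linarith)
    (one_le_pow₀ P.hL)

lemma exists_thr_finset (m : ℕ → ℝ) {k : ℕ} (hk : k < P.d) :
    ∃ S : Finset ℝ, S.card ≤ P.card ∧ ∀ θ, IsThr (P.M k) m k θ → θ ∈ S := by
  classical
  obtain ⟨N, hN⟩ : ∃ N : ℤ, N = (P.M k : ℤ) := ⟨_, rfl⟩
  refine ⟨((Icc (-N) N) ×ˢ Fintype.piFinset (fun _ : Fin k => Icc (-N) N)).image
    (fun p : ℤ × (Fin k → ℤ) => -(∑ j : Fin k, (p.2 j : ℝ) * m j) / (p.1 : ℝ)), ?_, ?_⟩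
  · refine le_trans Finset.card_image_le ?_
    simp only [Finset.card_product, Fintype.card_piFinset, Int.card_Icc, Finset.prod_const,
      Finset.card_univ, Fintype.card_fin]
    have h1 : (N + 1 - -N).toNat = 2 * P.M k + 1 := by subst hN; omega
    rw [h1, ← pow_succ', Par.card]
    calc (2 * P.M k + 1) ^ (k + 1) ≤ (2 * P.Lam + 1) ^ (k + 1) :=
          Nat.pow_le_pow_left (by have := P.M_le_Lam hk; omega) _
      _ ≤ (2 * P.Lam + 1) ^ (P.d + 1) := Nat.pow_le_pow_right (by omega) (by omega)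
  · rintro θ ⟨s, a, hs, hsN, haN, he⟩
    simp only [Finset.mem_image, Finset.mem_product, Finset.mem_Icc, Fintype.mem_piFinset]
    refine ⟨(s, a), ⟨?_, fun j => ?_⟩, ?_⟩
    · rw [abs_le] at hsN; subst hN; exact ⟨hsN.1, hsN.2⟩
    · have := abs_le.mp (haN j); subst hN; exact ⟨this.1, this.2⟩
    · have : (s : ℝ) ≠ 0 := by exact_mod_cast hs
      rw [eq_comm, eq_div_iff this]
      linarith

variable {P}

lemma flat_cmp {y y' m : ℕ → ℝ} {ε : ℝ} {j0 : ℕ} (hj0 : j0 < P.d) {s : ℝ}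
    (hle : J P y' (flat m j0 s) ≤ J P y' m + ε) {c : ℝ}
    (hc : ∀ j ∈ Ico j0 P.d, wt P (flat m j0 s) j ≤ c) :
    ∑ j ∈ Ico j0 P.d, (y' j * (s - m j) + wt P m j * exp (m j)) ≤ P.d * c * exp s + ε := by
  unfold J at hle
  rw [Finset.range_eq_Ico, ← Finset.sum_Ico_consecutive _ (Nat.zero_le j0) hj0.le,
    ← Finset.sum_Ico_consecutive _ (Nat.zero_le j0) hj0.le] at hle
  have hpre : ∑ j ∈ Ico 0 j0, (y' j * flat m j0 s j - wt P (flat m j0 s) j * exp (flat m j0 s j))
      = ∑ j ∈ Ico 0 j0, (y' j * m j - wt P m j * exp (m j)) := by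
    refine Finset.sum_congr rfl fun j hj => ?_
    have hj' : j < j0 := (Finset.mem_Ico.mp hj).2
    rw [flat_lt m s hj', wt_congr P (m' := m) (fun i hi => flat_lt m s (by omega))]
  rw [hpre] at hle
  have hsuf : ∑ j ∈ Ico j0 P.d, (y' j * flat m j0 s j - wt P (flat m j0 s) j * exp (flat m j0 s j))
      = ∑ j ∈ Ico j0 P.d, (y' j * s - wt P (flat m j0 s) j * exp s) := by
    refine Finset.sum_congr rfl fun j hj => ?_
    rw [flat_ge m s (Finset.mem_Ico.mp hj).1]
  rw [hsuf] at hle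
  have hw : ∑ j ∈ Ico j0 P.d, wt P (flat m j0 s) j * exp s ≤ P.d * c * exp s := by
    have h0 : 0 ≤ c := le_trans (wt_pos P _ _).le (hc j0 (Finset.mem_Ico.mpr ⟨le_rfl, hj0⟩))
    calc _ ≤ ∑ _j ∈ Ico j0 P.d, c * exp s :=
          Finset.sum_le_sum fun j hj => mul_le_mul_of_nonneg_right (hc j hj) (exp_pos _).le
      _ = ((P.d - j0 : ℕ) : ℝ) * (c * exp s) := by simp [Finset.sum_const]
      _ ≤ (P.d : ℝ) * (c * exp s) := by
          refine mul_le_mul_of_nonneg_right ?_ (by positivity)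
          exact_mod_cast Nat.sub_le _ _
      _ = _ := by ring
  simp only [Finset.sum_sub_distrib, Finset.sum_add_distrib, mul_sub] at hle ⊢
  linarith

lemma flat_wt_pin {m : ℕ → ℝ} {j0 : ℕ} {s : ℝ} (hs : IsThr (P.M j0) m j0 s) {j : ℕ}
    (hj : j0 ≤ j) (hjd : j < P.d) : wt P (flat m j0 s) j ≤ exp (-(W P m j0)) := by
  have e : ∀ i < j0, m i = flat m j0 s i := fun i hi => (flat_lt m s hi).symm
  have hp0 : Pin P (flat m j0 s) j0 := by
    unfold Pin; rw [flat_ge m s le_rfl]; exact hs.congr e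
  have hpj : Pin P (flat m j0 s) j := by
    rcases Nat.lt_or_eq_of_le hj with h | h
    · exact flat_pin P m j0 s h
    · subst h; exact hp0
  rw [wt, if_pos hpj, exp_le_exp, neg_le_neg_iff, W_congr P e]
  refine L_pow_mono P ?_
  rcases Nat.lt_or_eq_of_le hj with h | h
  · have h1 := (lo_succ_pin P hp0).1
    have h2 := (lo_mono P (flat m j0 s) (i := j0 + 1) (j := j) h hjd.le).1
    have h3 := (lo_lt_mid P (flat m j0 s) hjd.le).1
    omega
  · subst h; exact le_rfl

lemma self_le_of_near {y m : ℕ → ℝ} {ε : ℝ} (hmax : NearMax P y m ε) {j : ℕ} (hj : j < P.d)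
    {m' : ℕ → ℝ} (h' : Ok P m') : J P y m' ≤ J P y m + ε := by
  have := hmax m' h' j hj j hj
  simpa [Equiv.swap_self] using this

lemma four_le_L (hB : Big P) : 4 ≤ P.L := by
  have h := hB.lam
  have h1 : (1 : ℝ) ≤ (P.Lam : ℝ) ^ (P.d + 2) := one_le_pow₀ (by exact_mod_cast P.one_le_Lam)
  linarith

lemma L_ge_one_lam (hB : Big P) : (P.Lam : ℝ) ^ (P.d + 2) ≤ P.L := by
  have h := hB.lam
  have : (0 : ℝ) ≤ (P.Lam : ℝ) ^ (P.d + 2) := by positivity
  linarith

/-- distinct thresholds differ by a lot -/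
lemma thr_gap {m : ℕ → ℝ} (hB : Big P) (hm : Ok P m) {k : ℕ} (hk : k < P.d) {θ θ' : ℝ}
    (h1 : IsThr (P.M k) m k θ) (h2 : IsThr (P.M k) m k θ') (hne : θ ≠ θ') :
    4 * W P m k ≤ |θ - θ'| := by
  have h := thr_sep P hm hk h1 h2 hne
  have hLam : (0 : ℝ) < (P.Lam : ℝ) ^ (P.d + 2) := by
    have : (1 : ℝ) ≤ P.Lam := by exact_mod_cast P.one_le_Lam
    positivity
  refine le_of_mul_le_mul_left (le_trans ?_ h) hLam
  calc (P.Lam : ℝ) ^ (P.d + 2) * (4 * W P m k) = (4 * (P.Lam : ℝ) ^ (P.d + 2)) * W P m k := by ring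
    _ ≤ P.L * W P m k := mul_le_mul_of_nonneg_right hB.lam (W_pos P m k).le
    _ = P.L ^ (mid P m k + 1) := by rw [W, pow_succ']
    _ ≤ _ := L_pow_mono P (lo_lt_mid P m hk.le).2

/-- upper bound on the data -/
lemma upper {y m : ℕ → ℝ} {ε : ℝ} (hB : Big P) (hy : ∀ j < P.d, 0 ≤ y j) (hm : Ok P m)
    (hmax : NearMax P y m ε) {k : ℕ} (hk : k < P.d) (hε : ε ≤ y k / 2) :
    y k ≤ 2 * P.d * exp (m k + P.L ^ lo P m P.d + 1) := by
  classical
  have hex : ∃ j, j ≤ k ∧ m j = m k := ⟨k, le_rfl, rfl⟩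
  obtain ⟨k0, hk0def⟩ : ∃ k0, k0 = Nat.find hex := ⟨_, rfl⟩
  obtain ⟨hk0le, hk0eq⟩ : k0 ≤ k ∧ m k0 = m k := hk0def ▸ Nat.find_spec hex
  have hk0 : k0 < P.d := by omega
  have hgt : ∀ i < k0, m k < m i := by
    intro i hi
    rcases lt_or_eq_of_le (hm.antitone P (i := i) (j := k) (by omega) hk) with h | h
    · exact h
    · exact absurd ⟨by omega, h.symm⟩ (Nat.find_min hex (hk0def ▸ hi))
  have hle : ∀ j ∈ Ico k0 P.d, m j ≤ m k := by
    intro j hj
    rw [← hk0eq]
    exact hm.antitone P (Finset.mem_Ico.mp hj).1 (Finset.mem_Ico.mp hj).2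
  have main : ∀ (s g c : ℝ), 1 ≤ g → g ≤ s - m k → (∀ i < k0, s ≤ m i) →
      (IsThr (P.M k0) m k0 s ∨ ∀ θ, IsThr (P.M k0) m k0 θ → W P m k0 ≤ |s - θ|) →
      (∀ j ∈ Ico k0 P.d, wt P (flat m k0 s) j ≤ c) → y k ≤ 2 * (P.d * c * exp s) := by
    intro s g c hg hgs hs hadm hc
    have h := flat_cmp hk0 (self_le_of_near hmax hk (ok_flat P hm hk0 hs hadm)) hc (y := y)
    have hterm : y k * (s - m k) ≤ ∑ j ∈ Ico k0 P.d, (y j * (s - m j) + wt P m j * exp (m j)) := by
      refine le_trans ?_ (Finset.single_le_sum (fun j hj => ?_)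
        (Finset.mem_Ico.mpr ⟨hk0le, hk⟩))
      · have := mul_pos (wt_pos P m k) (exp_pos (m k))
        linarith
      · have := mul_pos (wt_pos P m j) (exp_pos (m j))
        have := mul_nonneg (hy j (Finset.mem_Ico.mp hj).2) (show (0:ℝ) ≤ s - m j by
          linarith [hle j hj])
        linarith
    have : y k ≤ y k * (s - m k) := le_mul_of_one_le_right (hy k hk) (by linarith)
    linarith
  have hd : (0 : ℝ) ≤ P.d := Nat.cast_nonneg _
  have hW1 := one_le_W P m k0
  have hloW : 0 ≤ P.L ^ lo P m P.d := (pow_pos (L_pos P) _).le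
  by_cases hp : Pin P m k0
  · have hWle : W P m k0 ≤ P.L ^ lo P m P.d := by
      refine L_pow_mono P ?_
      have := (lo_mono P m (i := k0 + 1) (j := P.d) hk0 le_rfl).1
      rw [(lo_succ_pin P hp).1] at this
      exact this
    have hp' : IsThr (P.M k0) m k0 (m k) := hk0eq ▸ hp
    have hs : ∀ i < k0, m k + W P m k0 + 1 ≤ m i := by
      intro i hi
      obtain ⟨q, rfl⟩ : ∃ q, k0 = q + 1 := ⟨k0 - 1, by omega⟩
      refine le_trans ?_ (hm.antitone P (i := i) (j := q) (by omega) (by omega))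
      have hq := hgt q (by omega)
      have hgap := thr_gap hB hm hk0 (isThr_prev (P.one_le_M _) m q) hp' (ne_of_gt hq)
      rw [abs_of_pos (by linarith)] at hgap
      linarith
    have hadm : IsThr (P.M k0) m k0 (m k + W P m k0 + 1) ∨
        ∀ θ, IsThr (P.M k0) m k0 θ → W P m k0 ≤ |m k + W P m k0 + 1 - θ| := by
      refine Or.inr fun θ hθ => ?_
      by_cases hθe : θ = m k
      · subst hθe; rw [abs_of_pos (by linarith)]; linarith
      · have hgap := thr_gap hB hm hk0 hp' hθ (Ne.symm hθe)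
        have : |m k - θ| ≤ |m k + W P m k0 + 1 - θ| + |W P m k0 + 1| := by
          calc |m k - θ| = |(m k + W P m k0 + 1 - θ) - (W P m k0 + 1)| := by ring_nf
            _ ≤ _ := abs_sub _ _
        rw [abs_of_pos (show 0 < W P m k0 + 1 by linarith)] at this
        linarith
    have h := main _ 1 1 le_rfl (by linarith) hs hadm fun j _ => wt_le_one P _ _
    refine le_trans h (le_of_le_of_eq (b := 2 * ((P.d : ℝ) * 1 * exp (m k + P.L ^ lo P m P.d + 1)))
      ?_ (by ring))
    gcongr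
  · have hfree : ∀ θ, IsThr (P.M k0) m k0 θ → W P m k0 ≤ |m k - θ| := by
      rw [← hk0eq]; exact (hm.2 k0 hk0).resolve_left hp
    obtain ⟨S, -, hS⟩ := exists_thr_finset P m hk0
    obtain ⟨T, hT⟩ : ∃ T : Finset ℝ, T = S.filter
        (fun θ => IsThr (P.M k0) m k0 θ ∧ m k < θ ∧ θ ≤ m k + W P m k0 + 1) := ⟨_, rfl⟩
    have hmem : ∀ θ, IsThr (P.M k0) m k0 θ → m k < θ → θ ≤ m k + W P m k0 + 1 → θ ∈ T := by
      intro θ a b c; rw [hT, Finset.mem_filter]; exact ⟨hS θ a, a, b, c⟩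
    by_cases hne : T.Nonempty
    · obtain ⟨s, hsdef⟩ : ∃ s, s = T.min' hne := ⟨_, rfl⟩
      have hsT : s ∈ T := hsdef ▸ T.min'_mem hne
      rw [hT, Finset.mem_filter] at hsT
      obtain ⟨-, hsthr, hsgt, hsle⟩ := hsT
      have hs : ∀ i < k0, s ≤ m i := by
        intro i hi
        obtain ⟨q, rfl⟩ : ∃ q, k0 = q + 1 := ⟨k0 - 1, by omega⟩
        refine le_trans ?_ (hm.antitone P (i := i) (j := q) (by omega) (by omega))
        rcases le_or_gt (m q) (m k + W P m (q + 1) + 1) with hh | hh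
        · rw [hsdef]
          exact T.min'_le _ (hmem _ (isThr_prev (P.one_le_M _) m q) (hgt q (by omega)) hh)
        · linarith
      have hg : W P m k0 ≤ s - m k := by
        have := hfree s hsthr
        rwa [abs_of_neg (by linarith), neg_sub] at this
      have h := main s _ _ hW1 hg hs (Or.inl hsthr)
        fun j hj => flat_wt_pin hsthr (Finset.mem_Ico.mp hj).1 (Finset.mem_Ico.mp hj).2
      refine le_trans h ?_
      rw [mul_assoc (P.d : ℝ), ← exp_add, ← mul_assoc]
      exact mul_le_mul_of_nonneg_left (exp_le_exp.mpr (by linarith)) (by positivity)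
    · have hs : ∀ i < k0, m k + 1 ≤ m i := by
        intro i hi
        obtain ⟨q, rfl⟩ : ∃ q, k0 = q + 1 := ⟨k0 - 1, by omega⟩
        refine le_trans ?_ (hm.antitone P (i := i) (j := q) (by omega) (by omega))
        by_contra hh
        exact hne ⟨_, hmem _ (isThr_prev (P.one_le_M _) m q) (hgt q (by omega))
          (by linarith [W_pos P m (q + 1)])⟩
      have hadm : IsThr (P.M k0) m k0 (m k + 1) ∨
          ∀ θ, IsThr (P.M k0) m k0 θ → W P m k0 ≤ |m k + 1 - θ| := by
        refine Or.inr fun θ hθ => ?_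
        rcases le_or_gt θ (m k) with hh | hh
        · have := hfree θ hθ
          rw [abs_of_nonneg (show 0 ≤ m k - θ by linarith)] at this
          rw [abs_of_nonneg (show 0 ≤ m k + 1 - θ by linarith)]
          linarith
        · have : m k + W P m k0 + 1 < θ := by
            by_contra hc; exact hne ⟨θ, hmem θ hθ hh (by linarith)⟩
          rw [abs_of_neg (by linarith)]; linarith
      have h := main _ 1 1 le_rfl (by linarith) hs hadm fun j _ => wt_le_one P _ _
      refine le_trans h (le_of_le_of_eq (b := 2 * ((P.d : ℝ) * 1 * exp (m k + P.L ^ lo P m P.d + 1)))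
        ?_ (by ring))
      gcongr
      linarith

/-- the data after a strict drop are exponentially small -/
lemma tail_small {y m : ℕ → ℝ} {ε : ℝ} (hB : Big P) (hy : ∀ j < P.d, 0 ≤ y j) (hm : Ok P m)
    (hmax : NearMax P y m ε) {k1 : ℕ} (hk1 : k1 + 1 < P.d) (hlt : m (k1 + 1) < m k1) :
    ∑ j ∈ Ico (k1 + 1) P.d, y j ≤ P.d * exp (-(W P m (k1 + 1))) * exp (m k1) + ε := by
  have hprev := isThr_prev (P.one_le_M (k1 + 1)) m k1
  have hs : ∀ i < k1 + 1, m k1 ≤ m i := fun i hi => hm.antitone P (by omega) (by omega)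
  have h := flat_cmp hk1 (self_le_of_near hmax hk1 (ok_flat P hm hk1 hs (Or.inl hprev)))
    (c := exp (-(W P m (k1 + 1))))
    (fun j hj => flat_wt_pin hprev (Finset.mem_Ico.mp hj).1 (Finset.mem_Ico.mp hj).2) (y := y)
  have hgap : 1 ≤ m k1 - m (k1 + 1) := by
    rcases hm.2 (k1 + 1) hk1 with hp | hf
    · have := thr_gap hB hm hk1 hprev hp (ne_of_gt hlt)
      rw [abs_of_pos (by linarith)] at this
      linarith [one_le_W P m (k1 + 1)]
    · have := hf _ hprev
      rw [abs_of_neg (by linarith), neg_sub] at this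
      linarith [one_le_W P m (k1 + 1)]
  refine le_trans (Finset.sum_le_sum fun j hj => ?_) h
  have := mul_pos (wt_pos P m j) (exp_pos (m j))
  have hj' := Finset.mem_Ico.mp hj
  have hmj := hm.antitone P hj'.1 hj'.2
  have : y j ≤ y j * (m k1 - m j) :=
    le_mul_of_one_le_right (hy j hj'.2) (by linarith)
  linarith

/-- lower bound on the data -/
lemma lower {y m : ℕ → ℝ} {ε : ℝ} (hB : Big P) (hy : ∀ j < P.d, 0 ≤ y j) (hm : Ok P m)
    (hmax : NearMax P y m ε) {k : ℕ} (hk : k < P.d)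
    (hε : 8 * (P.T' + 1) * ε ≤ exp (m k - P.L ^ lo P m P.d)) :
    exp (m k - P.L ^ lo P m P.d) ≤ 8 * P.T' * y k := by
  classical
  obtain ⟨k1, hk1def⟩ : ∃ k1, k1 = Nat.findGreatest (fun j => m j = m k) (P.d - 1) := ⟨_, rfl⟩
  have hk1eq : m k1 = m k :=
    hk1def ▸ Nat.findGreatest_spec (P := fun j => m j = m k) (m := k) (by omega) rfl
  have hkk1 : k ≤ k1 :=
    hk1def ▸ Nat.le_findGreatest (P := fun j => m j = m k) (by omega) rfl
  have hk1 : k1 < P.d := by
    have : k1 ≤ P.d - 1 := hk1def ▸ Nat.findGreatest_le _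
    omega
  obtain ⟨E, hE⟩ : ∃ E, E = P.L ^ lo P m (k1 + 1) := ⟨_, rfl⟩
  have hEle : E ≤ P.L ^ lo P m P.d := hE ▸ L_pow_mono P (lo_mono P m (i := k1 + 1) hk1 le_rfl).1
  have hE1 : 1 ≤ E := hE ▸ one_le_pow₀ P.hL
  have hEtop : P.L * E ≤ P.L ^ P.top := by
    rw [hE, ← pow_succ']
    refine L_pow_mono P ?_
    have := gap_two P m (k := k1 + 1) hk1
    have := hi_le_top P m (k := k1 + 1) hk1
    omega
  have hw : exp (-E) ≤ wt P m k1 := by
    unfold wt
    split_ifs with hp
    · rw [exp_le_exp, neg_le_neg_iff, hE, W, (lo_succ_pin P hp).1]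
    · rw [exp_le_one_iff]; linarith
  have hWtop : W P m k1 ≤ P.L ^ P.top := by
    refine L_pow_mono P ?_
    have := lo_lt_mid P m (k := k1) hk1.le
    have := hi_le_top P m (k := k1) hk1.le
    omega
  -- choose the destination
  obtain ⟨S, hScard, hS⟩ := exists_thr_finset P m hk1
  obtain ⟨q, hq, hfar⟩ : ∃ q ≤ P.card, ∀ θ, IsThr (P.M k1) m k1 θ →
      W P m k1 ≤ |m k - P.L ^ P.top - 3 * W P m k1 * (q : ℕ) - θ| := by
    by_contra hcon
    simp only [not_exists, not_and, not_forall, not_le] at hcon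
    choose f hf1 hf2 using hcon
    have hinj : ∀ a ha b hb, f a ha = f b hb → a = b := by
      intro a ha b hb he
      by_contra hab
      have h1 := hf2 a ha
      have h2 := hf2 b hb
      rw [he] at h1
      have h3 : |3 * W P m k1 * ((b : ℝ) - a)| < 2 * W P m k1 := by
        rw [abs_lt] at h1 h2 ⊢
        constructor <;> linarith
      rw [abs_mul, abs_of_pos (mul_pos three_pos (W_pos P m k1))] at h3
      have : (1 : ℝ) ≤ |(b : ℝ) - a| := by
        have : (1 : ℤ) ≤ |(b : ℤ) - a| := Int.one_le_abs (by omega)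
        exact_mod_cast this
      nlinarith [W_pos P m k1]
    obtain ⟨g, hg⟩ : ∃ g : Fin (P.card + 1) → {x // x ∈ S},
        g = fun a => ⟨f a (Nat.lt_succ_iff.mp a.isLt), hS _ (hf1 _ _)⟩ := ⟨_, rfl⟩
    have hginj : Function.Injective g := by
      intro a b he
      rw [hg] at he
      exact Fin.ext (hinj _ _ _ _ (congrArg Subtype.val he))
    have := Fintype.card_le_of_injective g hginj
    simp at this
    omega
  obtain ⟨s, hsdef⟩ : ∃ s, s = m k - P.L ^ P.top - 3 * W P m k1 * (q : ℕ) := ⟨_, rfl⟩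
  rw [← hsdef] at hfar
  have hq' : (q : ℝ) ≤ P.card := by exact_mod_cast hq
  have hT0 : 0 ≤ P.L ^ P.top := (pow_pos (L_pos P) _).le
  have hWq : 0 ≤ 3 * W P m k1 * (q : ℕ) := by
    have := W_pos P m k1; positivity
  have hsT : m k - s ≤ P.T' := by
    unfold Par.T'
    have : 3 * W P m k1 * (q : ℝ) ≤ 3 * P.L ^ P.top * P.card := by
      have := (W_pos P m k1).le
      gcongr
    rw [hsdef]; linarith
  have hss : s ≤ m k - P.L ^ P.top := by rw [hsdef]; linarith
  have hs : ∀ i < k1, s ≤ m i := by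
    intro i hi
    have := hm.antitone P (i := i) (j := k1) hi.le hk1
    linarith [hk1eq]
  -- compare
  obtain ⟨y', hy'⟩ : ∃ y', y' = y ∘ Equiv.swap k k1 := ⟨_, rfl⟩
  have hJ : J P y' m = J P y m := by
    unfold J
    simp only [Finset.sum_sub_distrib]
    congr 1
    refine Finset.sum_equiv (Equiv.swap k k1) (fun i => ?_) (fun i _ => ?_)
    · simp only [Finset.mem_range, Equiv.swap_apply_def]
      split_ifs with h1 h2 <;> omega
    · rw [hy', Function.comp_apply]
      rw [Equiv.swap_apply_def]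
      split_ifs with h1 h2
      · rw [h1, hk1eq]
      · rw [h2, hk1eq]
      · rfl
  have hle : J P y' (flat m k1 s) ≤ J P y' m + ε := by
    rw [hJ, hy']
    exact hmax _ (ok_flat P hm hk1 hs (Or.inr hfar)) k hk k1 hk1
  have h := flat_cmp hk1 hle (c := 1) (fun j _ => wt_le_one P _ _) (y := y)
  rw [Finset.sum_eq_sum_Ico_succ_bot hk1] at h
  have hy'k : y' k1 = y k := by rw [hy']; simp
  rw [hy'k, hk1eq] at h
  obtain ⟨r, hr⟩ : ∃ r, r = ∑ j ∈ Ico (k1 + 1) P.d, y j := ⟨_, rfl⟩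
  have hr0 : 0 ≤ r := hr ▸ Finset.sum_nonneg fun j hj => hy j (Finset.mem_Ico.mp hj).2
  have hrest : r * (s - m k) ≤
      ∑ j ∈ Ico (k1 + 1) P.d, (y' j * (s - m j) + wt P m j * exp (m j)) := by
    rw [hr, Finset.sum_mul]
    refine Finset.sum_le_sum fun j hj => ?_
    have hj' := Finset.mem_Ico.mp hj
    have e : y' j = y j := by
      rw [hy', Function.comp_apply, Equiv.swap_apply_of_ne_of_ne (by omega) (by omega)]
    rw [e]
    have h1 := mul_pos (wt_pos P m j) (exp_pos (m j))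
    have h2 : m j ≤ m k := hk1eq ▸ hm.antitone P (by omega) hj'.2
    have h3 : y j * (s - m k) ≤ y j * (s - m j) :=
      mul_le_mul_of_nonneg_left (by linarith) (hy j hj'.2)
    linarith
  have hexp : ∀ a b : ℝ, 4 * ((P.d : ℝ) + 1) * P.T' * exp a ≤ exp b →
      4 * ((P.d : ℝ) * P.T') * exp a ≤ exp b := by
    intro a b hab
    refine le_trans ?_ hab
    refine mul_le_mul_of_nonneg_right ?_ (exp_pos _).le
    have := one_le_T' P
    nlinarith
  have hrsmall : P.T' * r ≤ exp (m k - E) / 4 + P.T' * ε := by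
    rcases Nat.lt_or_eq_of_le (Nat.succ_le_of_lt hk1) with hh | hh
    · have hlt : m (k1 + 1) < m k1 := by
        rcases lt_or_eq_of_le (hm.1 k1 hh) with h' | h'
        · exact h'
        · exfalso
          have : k1 + 1 ≤ k1 := by
            nth_rewrite 2 [hk1def]
            exact Nat.le_findGreatest (P := fun j => m j = m k) (by omega) (by rw [h', hk1eq])
          omega
      have h1 := tail_small hB hy hm hmax hh hlt
      rw [← hr, hk1eq] at h1
      have hW' : P.L * E ≤ W P m (k1 + 1) := by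
        rw [hE, ← pow_succ']
        exact L_pow_mono P (lo_lt_mid P m hk1).1
      have h2 : 4 * ((P.d : ℝ) * P.T') * exp (-(W P m (k1 + 1)) + m k) ≤ exp (m k - E) := by
        refine hexp _ _ (le_trans (mul_le_mul_of_nonneg_right hB.big (exp_pos _).le) ?_)
        rw [← exp_add, exp_le_exp]
        nlinarith [P.hL]
      rw [exp_add] at h2
      have := one_le_T' P
      nlinarith [mul_le_mul_of_nonneg_left h1 (zero_le_one.trans this)]
    · have : r = 0 := by rw [hr, show k1 + 1 = P.d from hh]; simp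
      rw [this, mul_zero]
      by_cases hε0 : 0 ≤ ε
      · have := one_le_T' P; positivity
      · have h0 := self_le_of_near hmax hk hm
        linarith
  have hbig : (P.d : ℝ) * exp s ≤ exp (m k - E) / 4 := by
    have h2 : 4 * ((P.d : ℝ) * P.T') * exp s ≤ exp (m k - E) := by
      refine hexp _ _ (le_trans (mul_le_mul_of_nonneg_right hB.big (exp_pos _).le) ?_)
      rw [← exp_add, exp_le_exp]
      nlinarith [P.hL]
    have := one_le_T' P
    nlinarith [mul_nonneg (Nat.cast_nonneg P.d : (0:ℝ) ≤ P.d) (exp_pos s).le]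
  have hmain : exp (m k - E) ≤ wt P m k1 * exp (m k) := by
    rw [sub_eq_add_neg, exp_add, mul_comm (exp (m k))]
    exact mul_le_mul_of_nonneg_right hw (exp_pos _).le
  have hεE : exp (m k - P.L ^ lo P m P.d) ≤ exp (m k - E) := exp_le_exp.mpr (by linarith)
  have hyk := hy k hk
  have h3 : y k * (m k - s) ≤ y k * P.T' := mul_le_mul_of_nonneg_left hsT hyk
  have h4 : r * (m k - s) ≤ r * P.T' := mul_le_mul_of_nonneg_left hsT hr0
  have hfin : exp (m k - E) ≤ y k * P.T' + exp (m k - E) / 2 + (P.T' + 1) * ε := by linarith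
  linarith [exp_pos (m k - E)]

/-- all coordinates follow the logarithm at the current scale -/
theorem bias {y m : ℕ → ℝ} {ε : ℝ} (hB : Big P) (hy : ∀ j < P.d, 0 < y j) (hm : Ok P m)
    (hmax : NearMax P y m ε) {k : ℕ} (hk : k < P.d)
    (hε : ε ≤ y k * (exp (-(3 * P.L ^ P.top)) / (8 * (P.T' + 1)))) :
    |log (y k) - m k| ≤ 3 * P.L ^ lo P m P.d := by
  have hy0 : ∀ j < P.d, 0 ≤ y j := fun j hj => (hy j hj).le
  have hT := one_le_T' P
  obtain ⟨E, hE⟩ : ∃ E, E = P.L ^ lo P m P.d := ⟨_, rfl⟩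
  have hLE : P.L ≤ E := by
    rw [hE]
    calc P.L = P.L ^ 1 := (pow_one _).symm
      _ ≤ _ := L_pow_mono P (one_le_lo P m le_rfl)
  have h4 := four_le_L hB
  have hEtop : P.L * E ≤ P.L ^ P.top := by
    rw [hE, ← pow_succ']; refine L_pow_mono P ?_
    have := gap_two P m (k := P.d) le_rfl
    have := hi_le_top P m (k := P.d) le_rfl
    omega
  have hE4 : 4 * E ≤ P.L * E := mul_le_mul_of_nonneg_right h4 (by linarith)
  have hη : exp (-(3 * P.L ^ P.top)) / (8 * (P.T' + 1)) ≤ 1 / 2 := by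
    rw [div_le_iff₀ (by linarith)]
    have : exp (-(3 * P.L ^ P.top)) ≤ 1 := exp_le_one_iff.mpr (by
      have := pow_pos (L_pos P) P.top; linarith)
    linarith
  have hu := upper hB hy0 hm hmax hk (by
    refine le_trans hε (le_trans (mul_le_mul_of_nonneg_left hη (hy0 k hk)) (le_of_eq ?_))
    ring)
  rw [← hE] at hu
  have h2d : 8 * ((P.d : ℝ) + 1) * P.T' ≤ exp P.L := by
    have h := hB.big
    have e2 : (2 : ℝ) ≤ exp 1 := by linarith [add_one_le_exp (1 : ℝ)]
    have : exp P.L = exp (P.L - 1) * exp 1 := by rw [← exp_add]; ring_nf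
    rw [this]
    nlinarith [exp_pos (P.L - 1)]
  have hd0 : (0 : ℝ) ≤ P.d := Nat.cast_nonneg _
  have hup : y k ≤ exp (m k + 3 * E - 1) := by
    refine le_trans hu (le_trans (mul_le_mul_of_nonneg_right (show 2 * (P.d : ℝ) ≤ exp P.L by
      nlinarith) (exp_pos _).le) ?_)
    rw [← exp_add, exp_le_exp]
    linarith [P.hL]
  have hlow := lower hB hy0 hm hmax hk (by
    rw [← hE]
    have h1 : 8 * (P.T' + 1) * ε ≤ y k * exp (-(3 * P.L ^ P.top)) := by
      refine le_trans (mul_le_mul_of_nonneg_left hε (by linarith)) (le_of_eq ?_)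
      field_simp
    refine le_trans h1 (le_trans (mul_le_mul_of_nonneg_right hu (exp_pos _).le) ?_)
    rw [mul_assoc, ← exp_add]
    refine le_trans (mul_le_mul_of_nonneg_right (show 2 * (P.d : ℝ) ≤ exp P.L by nlinarith)
      (exp_pos _).le) ?_
    rw [← exp_add, exp_le_exp]
    linarith [P.hL])
  rw [← hE] at hlow ⊢
  have h8 : 8 * P.T' ≤ exp P.L := by
    refine le_trans ?_ h2d
    nlinarith
  have hlo : exp (m k - E) ≤ exp P.L * y k :=
    le_trans hlow (mul_le_mul_of_nonneg_right h8 (hy0 k hk))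
  rw [abs_le]
  constructor
  · have h := log_le_log (exp_pos _) hlo
    rw [log_exp, log_mul (exp_pos _).ne' (hy k hk).ne', log_exp] at h
    linarith
  · have h := log_le_log (hy k hk) hup
    rw [log_exp] at h
    linarith [P.hL]

end

end Vale.Agent.P072
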