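import Mathlib

/-!
# Mass-action systems

A network is given by its finite set `R` of reactions, each a pair (source, target) of complexes
in `Fin d → ℕ`.
-/

namespace Vale.Agent.P072

noncomputable section

variable {d : ℕ}

/-- The mass-action vector field: `x ↦ ∑ k(y→y') x^y (y' - y)`. -/
def massAction (R : Finset ((Fin d → ℕ) × (Fin d → ℕ))) (k : (Fin d → ℕ) × (Fin d → ℕ) → ℝ)
    (x : Fin d → ℝ) : Fin d → ℝ :=
  fun i => ∑ e ∈ R, k e * (∏ j, x j ^ e.1 j) * ((e.2 i : ℝ) - (e.1 i : ℝ))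

/-- Every reaction lies on a directed cycle: from its target a directed path leads back to its
source. -/
def WeaklyReversible (R : Finset ((Fin d → ℕ) × (Fin d → ℕ))) : Prop :=
  ∀ e ∈ R, Relation.ReflTransGen (fun a b => (a, b) ∈ R) e.2 e.1

/-- The stoichiometric subspace: the span of the reaction vectors. -/
def stoich (R : Finset ((Fin d → ℕ) × (Fin d → ℕ))) : Submodule ℝ (Fin d → ℝ) :=
  Submodule.span ℝ ((fun e i => (e.2 i : ℝ) - (e.1 i : ℝ)) '' (R : Set ((Fin d → ℕ) × (Fin d → ℕ))))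

/-- The positive stoichiometric class of `c`. -/
def posClass (R : Finset ((Fin d → ℕ) × (Fin d → ℕ))) (c : Fin d → ℝ) : Set (Fin d → ℝ) :=
  {x | (∀ i, 0 < x i) ∧ x - c ∈ stoich R}

/-- `x` solves the mass-action equation on the time set `I` (one-sided at endpoints). -/
def IsSolutionOn (R : Finset ((Fin d → ℕ) × (Fin d → ℕ))) (k : (Fin d → ℕ) × (Fin d → ℕ) → ℝ)
    (x : ℝ → Fin d → ℝ) (I : Set ℝ) : Prop :=
  ∀ t ∈ I, HasDerivWithinAt x (massAction R k (x t)) I t

end

end Vale.Agent.P072
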