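import Mathlib

/-!
# Sign of the derivative along a weakly reversible flow

If the edge weights `g` of a weakly reversible graph grow sharply in the direction of a potential
`φ`, the weighted sum of the increments of `φ` along the edges is negative.
-/

namespace Vale.Agent.P072

open Finset

noncomputable section

variable {κ : Type*}

/-- adjacency -/
def Step (R : Finset (κ × κ)) (a b : κ) : Prop := (a, b) ∈ R

lemma crossing {R : Finset (κ × κ)} (φ : κ → ℝ) {p q : ℝ} (hpq : p < q)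
    {t s : κ} (hpath : Relation.ReflTransGen (Step R) t s)
    (hgap : ∀ e ∈ R, φ e.2 ≤ p ∨ q ≤ φ e.2) (ht : q ≤ φ t) (hs : φ s ≤ p) :
    ∃ f ∈ R, q ≤ φ f.1 ∧ φ f.2 ≤ p := by
  induction hpath using Relation.ReflTransGen.head_induction_on with
  | refl => exfalso; linarith
  | @head a c hac _ ih =>
    rcases hgap (a, c) hac with h | h
    · exact ⟨(a, c), hac, ht, h⟩
    · exact ih h

lemma exists_gap (S : Finset ℝ) {lo hi : ℝ} (h : lo < hi) :
    ∃ p q : ℝ, lo ≤ p ∧ q ≤ hi ∧ (hi - lo) / ((S.card : ℝ) + 1) ≤ q - p ∧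
      ∀ z ∈ S, z ≤ p ∨ q ≤ z := by
  classical
  obtain ⟨w, hw⟩ : ∃ w, w = (hi - lo) / ((S.card : ℝ) + 1) := ⟨_, rfl⟩
  have hw0 : 0 < w := by rw [hw]; exact div_pos (by linarith) (by positivity)
  have hi' : hi = lo + ((S.card : ℝ) + 1) * w := by rw [hw]; field_simp; ring
  by_contra hcon
  have hall : ∀ i : Fin (S.card + 1), ∃ z : {z // z ∈ S},
      lo + (i : ℕ) * w < z.1 ∧ z.1 < lo + ((i : ℕ) + 1) * w := by
    intro i
    by_contra hi0
    refine hcon ⟨lo + (i : ℕ) * w, lo + ((i : ℕ) + 1) * w, ?_, ?_, ?_, fun z hz => ?_⟩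
    · have : (0 : ℝ) ≤ (i : ℕ) * w := by positivity
      linarith
    · rw [hi']
      have : ((i : ℕ) : ℝ) + 1 ≤ (S.card : ℝ) + 1 := by
        have := i.isLt
        have : ((i : ℕ) : ℝ) ≤ (S.card : ℝ) := by exact_mod_cast (by omega : (i : ℕ) ≤ S.card)
        linarith
      have := mul_le_mul_of_nonneg_right this hw0.le
      linarith
    · rw [← hw]; ring_nf; exact le_rfl
    · by_contra hz'
      rw [not_or, not_le, not_le] at hz'
      exact hi0 ⟨⟨z, hz⟩, hz'.1, hz'.2⟩
  choose g hg using hall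
  have hinj : Function.Injective g := by
    intro i j hij
    have h1 := hg i
    have h2 := hg j
    rw [hij] at h1
    have a1 : ((i : ℕ) : ℝ) < ((j : ℕ) : ℝ) + 1 := by
      by_contra hh
      have := mul_le_mul_of_nonneg_right (not_lt.mp hh) hw0.le
      linarith [h1.1, h2.2]
    have a2 : ((j : ℕ) : ℝ) < ((i : ℕ) : ℝ) + 1 := by
      by_contra hh
      have := mul_le_mul_of_nonneg_right (not_lt.mp hh) hw0.le
      linarith [h2.1, h1.2]
    have b1 : (i : ℕ) < (j : ℕ) + 1 := by exact_mod_cast a1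
    have b2 : (j : ℕ) < (i : ℕ) + 1 := by exact_mod_cast a2
    exact Fin.ext (by omega)
  have := Fintype.card_le_of_injective g hinj
  simp at this

variable (R : Finset (κ × κ)) (k : κ × κ → ℝ) (g φ : κ → ℝ)

/-- total weighted descent -/
def down : ℝ := ∑ e ∈ R, k e * g e.1 * max (φ e.1 - φ e.2) 0

variable {R k g φ}

/-- the main estimate -/
theorem flux {kmin kmax ρ : ℝ} (V : Finset κ) (hV : ∀ e ∈ R, e.1 ∈ V ∧ e.2 ∈ V)
    (hwr : ∀ e ∈ R, Relation.ReflTransGen (Step R) e.2 e.1)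
    (hk0 : 0 < kmin) (hk1 : ∀ e ∈ R, kmin ≤ k e) (hk2 : ∀ e ∈ R, k e ≤ kmax)
    (hg : ∀ c ∈ V, 0 < g c)
    (hdom : ∀ a ∈ V, ∀ c ∈ V, φ a < φ c → ρ * g a ≤ g c)
    (hρ : 2 * R.card * ((V.card : ℝ) + 1) * kmax ≤ ρ * kmin) (hρ0 : 0 < ρ) :
    (∑ e ∈ R, k e * g e.1 * (φ e.2 - φ e.1)) ≤ -(down R k g φ) / 2 ∧
      ∀ gmin, (∀ c ∈ V, gmin ≤ g c) → 0 ≤ gmin →
        (∃ e ∈ R, 1 ≤ |φ e.2 - φ e.1|) →
        kmin * gmin / ((V.card : ℝ) + 1) ≤ down R k g φ := by
  classical
  obtain ⟨n1, hn1⟩ : ∃ n1, n1 = (V.card : ℝ) + 1 := ⟨_, rfl⟩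
  have hn : 0 < n1 := by rw [hn1]; positivity
  have hterm0 : ∀ e ∈ R, 0 ≤ k e * g e.1 * max (φ e.1 - φ e.2) 0 := fun e he =>
    mul_nonneg (mul_nonneg (hk0.le.trans (hk1 e he)) (hg _ (hV e he).1).le) (le_max_right _ _)
  have hup : ∀ e ∈ R, φ e.1 < φ e.2 →
      ∃ f ∈ R, φ e.1 < φ f.1 ∧ (φ e.2 - φ e.1) / n1 ≤ φ f.1 - φ f.2 := by
    intro e he hlt
    obtain ⟨p, q, hp, hq, hpq, hgap⟩ := exists_gap (V.image φ) hlt
    have hcard : ((V.image φ).card : ℝ) + 1 ≤ n1 := by
      rw [hn1]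
      have : (V.image φ).card ≤ V.card := Finset.card_image_le
      have : ((V.image φ).card : ℝ) ≤ V.card := by exact_mod_cast this
      linarith
    have hw : (φ e.2 - φ e.1) / n1 ≤ q - p := by
      refine le_trans ?_ hpq
      exact div_le_div_of_nonneg_left (by linarith) (by positivity) hcard
    have hpos : 0 < (φ e.2 - φ e.1) / n1 := div_pos (by linarith) hn
    obtain ⟨f, hf, hf1, hf2⟩ := crossing φ (p := p) (q := q) (by linarith) (hwr e he)
      (fun f hf => hgap _ (Finset.mem_image_of_mem φ (hV f hf).2))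
      hq hp
    exact ⟨f, hf, by linarith, by linarith⟩
  have hdownf : ∀ f ∈ R, kmin * g f.1 * (φ f.1 - φ f.2) ≤ down R k g φ := by
    intro f hf
    refine le_trans ?_ (Finset.single_le_sum hterm0 hf)
    have hg0 := (hg _ (hV f hf).1).le
    calc kmin * g f.1 * (φ f.1 - φ f.2) ≤ kmin * g f.1 * max (φ f.1 - φ f.2) 0 :=
          mul_le_mul_of_nonneg_left (le_max_left _ _) (mul_nonneg hk0.le hg0)
      _ ≤ _ := mul_le_mul_of_nonneg_right (mul_le_mul_of_nonneg_right (hk1 f hf) hg0)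
          (le_max_right _ _)
  have hdown0 : 0 ≤ down R k g φ := Finset.sum_nonneg hterm0
  refine ⟨?_, ?_⟩
  · have key : ∀ e ∈ R, k e * g e.1 * (φ e.2 - φ e.1) +
        k e * g e.1 * max (φ e.1 - φ e.2) 0 ≤ down R k g φ / (2 * R.card) := by
      intro e he
      rcases le_or_gt (φ e.2) (φ e.1) with h | h
      · rw [max_eq_left (by linarith)]
        have : 0 ≤ down R k g φ / (2 * R.card) := div_nonneg hdown0 (by positivity)
        linarith
      · obtain ⟨f, hf, hlt, hdrop⟩ := hup e he h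
        rw [max_eq_right (by linarith), mul_zero, add_zero]
        have hge := (hg _ (hV e he).1).le
        have h1 := hdom _ (hV e he).1 _ (hV f hf).1 hlt
        have hdrop' : φ e.2 - φ e.1 ≤ n1 * (φ f.1 - φ f.2) := by
          rw [div_le_iff₀ hn] at hdrop; linarith
        have hd0 : 0 ≤ φ f.1 - φ f.2 := le_trans (div_nonneg (by linarith) hn.le) hdrop
        have hcard : (0 : ℝ) < R.card := by
          exact_mod_cast Finset.card_pos.mpr ⟨e, he⟩
        rw [le_div_iff₀ (by positivity)]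
        refine le_trans ?_ (hdownf f hf)
        have hk' : 0 ≤ kmax := le_trans (hk0.le.trans (hk1 e he)) (hk2 e he)
        calc k e * g e.1 * (φ e.2 - φ e.1) * (2 * R.card)
            ≤ kmax * g e.1 * (n1 * (φ f.1 - φ f.2)) * (2 * R.card) := by
              refine mul_le_mul_of_nonneg_right ?_ (by positivity)
              exact mul_le_mul (mul_le_mul_of_nonneg_right (hk2 e he) hge) hdrop' (by linarith)
                (mul_nonneg hk' hge)
          _ = (2 * R.card * n1 * kmax) * g e.1 * (φ f.1 - φ f.2) := by ring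
          _ ≤ (ρ * kmin) * g e.1 * (φ f.1 - φ f.2) := by
              refine mul_le_mul_of_nonneg_right (mul_le_mul_of_nonneg_right ?_ hge) hd0
              rw [hn1]; exact hρ
          _ = kmin * (ρ * g e.1) * (φ f.1 - φ f.2) := by ring
          _ ≤ kmin * g f.1 * (φ f.1 - φ f.2) :=
              mul_le_mul_of_nonneg_right (mul_le_mul_of_nonneg_left h1 hk0.le) hd0
    have hs := Finset.sum_le_sum key
    rw [Finset.sum_add_distrib] at hs
    simp only [Finset.sum_const, nsmul_eq_mul] at hs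
    have : (R.card : ℝ) * (down R k g φ / (2 * R.card)) ≤ down R k g φ / 2 := by
      rcases Nat.eq_zero_or_pos R.card with h | h
      · rw [h]; simp; positivity
      · have : (0 : ℝ) < R.card := by exact_mod_cast h
        field_simp
        exact le_rfl
    have e : (∑ e ∈ R, k e * g e.1 * max (φ e.1 - φ e.2) 0) = down R k g φ := rfl
    linarith
  · intro gmin hgmin hgmin0 ⟨e, he, he1⟩
    obtain ⟨f, hf, hdrop⟩ : ∃ f ∈ R, 1 / n1 ≤ φ f.1 - φ f.2 := by
      rcases le_abs'.mp he1 with h | h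
      · refine ⟨e, he, le_trans ?_ (by linarith : (1 : ℝ) ≤ φ e.1 - φ e.2)⟩
        rw [div_le_one hn, hn1]
        linarith [(Nat.cast_nonneg V.card : (0 : ℝ) ≤ V.card)]
      · obtain ⟨f, hf, -, hd⟩ := hup e he (by linarith)
        exact ⟨f, hf, le_trans (div_le_div_of_nonneg_right h hn.le) hd⟩
    refine le_trans ?_ (hdownf f hf)
    rw [← hn1, div_eq_mul_one_div]
    exact mul_le_mul (mul_le_mul_of_nonneg_left (hgmin _ (hV f hf).1) hk0.le) hdrop
      (by positivity) (mul_nonneg hk0.le (hg _ (hV f hf).1).le)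

end

end Vale.Agent.P072
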