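import Vale.Agent.P072.Round

/-!
# Suprema of affine functions along curves
-/

namespace Vale.Agent.P072

open Finset Real Set

noncomputable section

variable {ι : Type} [Fintype ι]

/-- the supremum of the affine family -/
def Vsup (Feas : Set ((ι → ℝ) × ℝ)) (x : ι → ℝ) : ℝ := sSup (val x '' Feas)

/-- basic properties of a family of affine functions -/
structure Nice (Feas : Set ((ι → ℝ) × ℝ)) (δ S0 : ℝ) : Prop where
  pos : 0 < δ
  one_le : 1 ≤ S0
  low : ∀ p ∈ Feas, δ * ∑ i, exp (p.1 i) ≤ p.2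
  diag : ∀ s : ℝ, (s = 0 ∨ S0 ≤ |s|) →
    ∃ q, ((fun _ => s), q) ∈ Feas ∧ q ≤ (Fintype.card ι : ℝ) * exp s

lemma mul_sub_exp_le {x δ : ℝ} (hx : 0 < x) (hδ : 0 < δ) (t : ℝ) :
    x * t - δ * exp t ≤ x * log (x / δ) := by
  have h := add_one_le_exp (t - log (x / δ))
  rw [exp_sub, exp_log (div_pos hx hδ)] at h
  have h2 : x * (t - log (x / δ) + 1) ≤ x * (exp t / (x / δ)) := mul_le_mul_of_nonneg_left h hx.le
  have h3 : x * (exp t / (x / δ)) = δ * exp t := by field_simp
  linarith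

variable {Feas : Set ((ι → ℝ) × ℝ)} {δ S0 : ℝ}

lemma bdd_val (hN : Nice Feas δ S0) {x : ι → ℝ} (hx : ∀ i, 0 < x i) :
    BddAbove (val x '' Feas) := by
  refine ⟨∑ i, x i * log (x i / δ), ?_⟩
  rintro _ ⟨p, hp, rfl⟩
  have h := hN.low p hp
  rw [Finset.mul_sum] at h
  have h2 := Finset.sum_le_sum (s := Finset.univ)
    fun i _ => mul_sub_exp_le (hx i) hN.pos (p.1 i)
  rw [Finset.sum_sub_distrib] at h2
  unfold val
  linarith

lemma val_le_Vsup (hN : Nice Feas δ S0) {x : ι → ℝ} (hx : ∀ i, 0 < x i) {p : (ι → ℝ) × ℝ}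
    (hp : p ∈ Feas) : val x p ≤ Vsup Feas x :=
  le_csSup (bdd_val hN hx) ⟨p, hp, rfl⟩

lemma diag_le (hN : Nice Feas δ S0) {x : ι → ℝ} (hx : ∀ i, 0 < x i) {s : ℝ}
    (hs : s = 0 ∨ S0 ≤ |s|) :
    s * ∑ i, x i - (Fintype.card ι : ℝ) * exp s ≤ Vsup Feas x := by
  obtain ⟨q, hq, hq'⟩ := hN.diag s hs
  refine le_trans ?_ (val_le_Vsup hN hx hq)
  unfold val
  rw [Finset.mul_sum]
  simp only [mul_comm s]
  linarith

lemma exists_near (hN : Nice Feas δ S0) (x : ι → ℝ) {ε : ℝ}
    (hε : 0 < ε) : ∃ p ∈ Feas, Vsup Feas x ≤ val x p + ε := by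
  obtain ⟨q, hq, -⟩ := hN.diag 0 (Or.inl rfl)
  obtain ⟨_, ⟨p, hp, rfl⟩, hlt⟩ := exists_lt_of_lt_csSup
    (Set.Nonempty.image (val x) ⟨_, hq⟩) (show Vsup Feas x - ε < Vsup Feas x by linarith)
  exact ⟨p, hp, by linarith⟩

lemma near_max (hN : Nice Feas δ S0) {x : ι → ℝ} (hx : ∀ i, 0 < x i) {p : (ι → ℝ) × ℝ} {ε : ℝ}
    (h : Vsup Feas x ≤ val x p + ε) : ∀ p' ∈ Feas, val x p' ≤ val x p + ε :=
  fun _ hp' => le_trans (val_le_Vsup hN hx hp') h

lemma Vsup_sub_le (hN : Nice Feas δ S0) {x : ι → ℝ} (hx : ∀ i, 0 < x i) (x' : ι → ℝ)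
    {p : (ι → ℝ) × ℝ} (hp : p ∈ Feas) {ε : ℝ} (h : Vsup Feas x' ≤ val x' p + ε) :
    Vsup Feas x' - Vsup Feas x ≤ (∑ i, p.1 i * (x' i - x i)) + ε := by
  have h1 := val_le_Vsup hN hx hp
  have h2 : ∑ i, p.1 i * (x' i - x i) = val x' p - val x p := by
    unfold val
    rw [sub_sub_sub_cancel_right, ← Finset.sum_sub_distrib]
    exact Finset.sum_congr rfl fun i _ => by ring
  linarith

/-- decrease of the supremum along a curve -/
theorem Vsup_decrease (hN : Nice Feas δ S0) {y F : ℝ → ι → ℝ} {a b η ε0 M : ℝ} (hab : a ≤ b)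
    (hpos : ∀ t ∈ Icc a b, ∀ i, 0 < y t i)
    (hy : ∀ i, ∀ t ∈ Icc a b, HasDerivWithinAt (fun s => y s i) (F t i) (Icc a b) t)
    (hF : ∀ i, ContinuousOn (fun t => F t i) (Icc a b)) (hε0 : 0 < ε0)
    (hkey : ∀ t ∈ Icc a b, ∀ p ∈ Feas, Vsup Feas (y t) ≤ val (y t) p + ε0 →
      (∀ i, |p.1 i| ≤ M) ∧ ∑ i, p.1 i * F t i ≤ -η) :
    Vsup Feas (y b) ≤ Vsup Feas (y a) - η * (b - a) := by
  rcases eq_or_lt_of_le hab with rfl | hab'
  · simp
  have hall : ∀ τ > 0, Vsup Feas (y b) ≤
      Vsup Feas (y a) - η * (b - a) + τ * (((Fintype.card ι : ℝ) * max M 0 + 1) * (b - a)) := by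
    intro τ hτ
    have hu : ∀ i, ∃ r > 0, ∀ s ∈ Icc a b, ∀ t ∈ Icc a b, |s - t| < r → |F s i - F t i| < τ := by
      intro i
      obtain ⟨r, hr, h⟩ := Metric.uniformContinuousOn_iff.mp
        (isCompact_Icc.uniformContinuousOn_of_continuous (hF i)) τ hτ
      exact ⟨r, hr, fun s hs t ht hst => h s hs t ht hst⟩
    choose r hr hr' using hu
    obtain ⟨r0, hr0, hr0'⟩ : ∃ r0 > (0 : ℝ), ∀ i, r0 ≤ r i := by
      rcases isEmpty_or_nonempty ι with h | h
      · exact ⟨1, one_pos, fun i => h.elim i⟩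
      · obtain ⟨i, hi⟩ := Finite.exists_min r
        exact ⟨r i, hr i, hi⟩
    obtain ⟨n, hn⟩ := exists_nat_gt ((b - a) / r0)
    have hn0 : (0 : ℝ) < n := lt_trans (div_pos (by linarith) hr0) hn
    obtain ⟨h, hh⟩ : ∃ h, h = (b - a) / n := ⟨_, rfl⟩
    have hhpos : 0 < h := by rw [hh]; exact div_pos (by linarith) hn0
    have hhr : h < r0 := by
      rw [hh, div_lt_iff₀ hn0]
      rw [div_lt_iff₀ hr0] at hn
      linarith
    have hb : b = a + (n : ℕ) * h := by rw [hh]; field_simp; ring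
    have hmem : ∀ j : ℕ, j ≤ n → a + j * h ∈ Icc a b := by
      intro j hj
      have h1 : (j : ℝ) * h ≤ (n : ℝ) * h :=
        mul_le_mul_of_nonneg_right (by exact_mod_cast hj) hhpos.le
      have h2 : (0 : ℝ) ≤ j * h := by positivity
      constructor <;> linarith
    have step : ∀ j : ℕ, j < n → Vsup Feas (y (a + (j + 1 : ℕ) * h)) ≤
        Vsup Feas (y (a + j * h)) +
          (-η * h + τ * (((Fintype.card ι : ℝ) * max M 0 + 1) * h)) := by
      intro j hj
      obtain ⟨s, hs⟩ : ∃ s, s = a + (j : ℕ) * h := ⟨_, rfl⟩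
      obtain ⟨t, ht⟩ : ∃ t, t = a + ((j + 1 : ℕ) : ℝ) * h := ⟨_, rfl⟩
      have hsI : s ∈ Icc a b := hs ▸ hmem j hj.le
      have htI : t ∈ Icc a b := ht ▸ hmem (j + 1) hj
      have hts : t = s + h := by rw [hs, ht]; push_cast; ring
      rw [← hs, ← ht]
      obtain ⟨p, hp, hpnear⟩ := exists_near hN (y t) (lt_min hε0 (mul_pos hτ hhpos))
      obtain ⟨hM, hder⟩ := hkey t htI p hp (le_trans hpnear (by
        linarith [min_le_left ε0 (τ * h)]))
      have hsub := Vsup_sub_le hN (hpos s hsI) (y t) hp hpnear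
      have hpart : ∀ i, |y t i - y s i - h * F t i| ≤ τ * h := by
        intro i
        have hsubset : Icc s t ⊆ Icc a b := Icc_subset_Icc hsI.1 htI.2
        have hd : ∀ z ∈ Icc s t, HasDerivWithinAt (fun z => y z i - z * F t i)
            (F z i - F t i) (Icc s t) z := by
          intro z hz
          have h1 := (hy i z (hsubset hz)).mono hsubset
          have h2 := (hasDerivWithinAt_id z (Icc s t)).mul_const (F t i)
          simpa using h1.fun_sub h2
        have hbd : ∀ z ∈ Icc s t, ‖F z i - F t i‖ ≤ τ := by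
          intro z hz
          refine (hr' i z (hsubset hz) t htI ?_).le
          rw [abs_lt]
          constructor <;> linarith [hz.1, hz.2, hr0' i]
        have h3 := (convex_Icc s t).norm_image_sub_le_of_norm_hasDerivWithin_le hd hbd
          (left_mem_Icc.mpr (by linarith)) (right_mem_Icc.mpr (by linarith))
        rw [Real.norm_eq_abs, Real.norm_eq_abs, hts, add_sub_cancel_left, abs_of_pos hhpos] at h3
        rw [hts]
        refine le_trans (le_of_eq ?_) h3
        congr 1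
        ring
      have hsum : ∑ i, p.1 i * (y t i - y s i) ≤
          h * (∑ i, p.1 i * F t i) + (Fintype.card ι : ℝ) * max M 0 * (τ * h) := by
        have hterm : ∀ i ∈ (Finset.univ : Finset ι),
            p.1 i * (y t i - y s i) - h * (p.1 i * F t i) ≤ max M 0 * (τ * h) := by
          intro i _
          calc p.1 i * (y t i - y s i) - h * (p.1 i * F t i)
              = p.1 i * (y t i - y s i - h * F t i) := by ring
            _ ≤ |p.1 i * (y t i - y s i - h * F t i)| := le_abs_self _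
            _ ≤ _ := by
              rw [abs_mul]
              exact mul_le_mul (le_trans (hM i) (le_max_left _ _)) (hpart i) (abs_nonneg _)
                (le_max_right _ _)
        have := Finset.sum_le_card_nsmul _ _ _ hterm
        rw [Finset.sum_sub_distrib, ← Finset.mul_sum, nsmul_eq_mul] at this
        simp only [Finset.card_univ] at this
        linarith
      have hdh : h * (∑ i, p.1 i * F t i) ≤ h * (-η) := mul_le_mul_of_nonneg_left hder hhpos.le
      linarith [min_le_right ε0 (τ * h)]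
    have hind : ∀ j : ℕ, j ≤ n → Vsup Feas (y (a + j * h)) ≤ Vsup Feas (y a) +
        j * (-η * h + τ * (((Fintype.card ι : ℝ) * max M 0 + 1) * h)) := by
      intro j
      induction j with
      | zero => intro _; simp
      | succ q ih =>
        intro hq
        have h1 := step q hq
        have h2 := ih (by omega)
        push_cast at h1 ⊢
        linarith
    have h1 := hind n le_rfl
    rw [← hb] at h1
    refine le_trans h1 (le_of_eq ?_)
    rw [hh]
    field_simp
    ring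
  refine le_of_forall_pos_le_add fun e he => ?_
  have hK : 0 < ((Fintype.card ι : ℝ) * max M 0 + 1) * (b - a) :=
    mul_pos (by positivity) (by linarith)
  have h1 := hall (e / (((Fintype.card ι : ℝ) * max M 0 + 1) * (b - a))) (div_pos he hK)
  rwa [div_mul_cancel₀ _ hK.ne'] at h1

end

end Vale.Agent.P072
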