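import Vale.Agent.P072.Defs
import Vale.Agent.P072.Lyap
import Vale.Agent.P072.Flux

/-!
# The Lyapunov function attached to a set of coordinates
-/

namespace Vale.Agent.P072

open Finset Real

noncomputable section

variable {d : ℕ}

/-- restriction to the coordinates in `Z` -/
def res (Z : Finset (Fin d)) (x : Fin d → ℝ) : {i // i ∈ Z} → ℝ := fun i => x i

/-- pairing of `μ` with the mass-action field on `Z` -/
def pairing (R : Finset ((Fin d → ℕ) × (Fin d → ℕ))) (k : (Fin d → ℕ) × (Fin d → ℕ) → ℝ)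
    (Z : Finset (Fin d)) (μ : {i // i ∈ Z} → ℝ) (x : Fin d → ℝ) : ℝ :=
  ∑ i, μ i * massAction R k x i

/-- the potential on complexes -/
def pot (Z : Finset (Fin d)) (μ : {i // i ∈ Z} → ℝ) (c : Fin d → ℕ) : ℝ :=
  ∑ i, μ i * (c i : ℝ)

/-- what the construction provides for a set `Z` of coordinates, the others having bounded
logarithm -/
structure FaceData (R : Finset ((Fin d → ℕ) × (Fin d → ℕ)))
    (k : (Fin d → ℕ) × (Fin d → ℕ) → ℝ) (Z : Finset (Fin d)) (B : ℝ) where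
  Feas : Set (({i // i ∈ Z} → ℝ) × ℝ)
  δ : ℝ
  S0 : ℝ
  C : ℝ
  κ : ℝ
  κpos : 0 < κ
  Cnonneg : 0 ≤ C
  nice : Nice Feas δ S0
  key : ∀ a > 0, ∃ ε0 > 0, ∀ x : Fin d → ℝ, (∀ i, 0 < x i) → (∀ j, j ∉ Z → |log (x j)| ≤ B) →
    (∀ i : {i // i ∈ Z}, a ≤ x i) → ∀ p ∈ Feas, Vsup Feas (res Z x) ≤ val (res Z x) p + ε0 →
      (∀ i : {i // i ∈ Z}, |log (x i) - p.1 i| ≤ C) ∧
      (∀ i : {i // i ∈ Z}, p.1 i = 0 ∨ 1 ≤ |p.1 i|) ∧
      pairing R k Z p.1 x ≤ 0 ∧
      ∀ gmin : ℝ, 0 ≤ gmin →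
        (∀ e ∈ R, gmin ≤ ∏ j, x j ^ e.1 j ∧ gmin ≤ ∏ j, x j ^ e.2 j) →
        (∀ e ∈ R, pot Z p.1 e.2 = pot Z p.1 e.1) ∨ pairing R k Z p.1 x ≤ -(κ * gmin)

theorem exists_faceData (R : Finset ((Fin d → ℕ) × (Fin d → ℕ)))
    (k : (Fin d → ℕ) × (Fin d → ℕ) → ℝ) (hk : ∀ e ∈ R, 0 < k e) (hwr : WeaklyReversible R)
    (Z : Finset (Fin d)) (B : ℝ) : Nonempty (FaceData R k Z B) := by
  classical
  obtain ⟨kmin, hk0, hk1⟩ : ∃ kmin > (0 : ℝ), ∀ e ∈ R, kmin ≤ k e := by
    rcases R.eq_empty_or_nonempty with h | h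
    · exact ⟨1, one_pos, by simp [h]⟩
    · obtain ⟨e, he, h'⟩ := R.exists_min_image k h
      exact ⟨k e, hk e he, h'⟩
  obtain ⟨kmax, hk2⟩ : ∃ kmax : ℝ, ∀ e ∈ R, k e ≤ kmax := by
    rcases R.eq_empty_or_nonempty with h | h
    · exact ⟨0, by simp [h]⟩
    · obtain ⟨e, he, h'⟩ := R.exists_max_image k h
      exact ⟨k e, h'⟩
  obtain ⟨V, hVdef⟩ : ∃ V, V = R.image Prod.fst ∪ R.image Prod.snd := ⟨_, rfl⟩
  have hV : ∀ e ∈ R, e.1 ∈ V ∧ e.2 ∈ V := by
    intro e he; rw [hVdef]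
    exact ⟨mem_union_left _ (mem_image_of_mem _ he), mem_union_right _ (mem_image_of_mem _ he)⟩
  obtain ⟨N0, hN0⟩ : ∃ N0, N0 = max (V.sup fun c => Finset.univ.sup c) 1 := ⟨_, rfl⟩
  have hbound : ∀ c ∈ V, ∀ i, c i ≤ N0 := by
    intro c hc i; rw [hN0]
    exact le_trans (le_trans (Finset.le_sup (Finset.mem_univ i))
      (Finset.le_sup (f := fun c : Fin d → ℕ => Finset.univ.sup c) hc)) (le_max_left _ _)
  obtain ⟨ρ, hρ0, hρ⟩ : ∃ ρ > (0 : ℝ),
      2 * R.card * ((V.card : ℝ) + 1) * kmax ≤ ρ * kmin := by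
    refine ⟨max (2 * R.card * ((V.card : ℝ) + 1) * kmax / kmin) 1,
      lt_of_lt_of_le one_pos (le_max_right _ _), ?_⟩
    rw [← div_le_iff₀ hk0]; exact le_max_left _ _
  obtain ⟨Feas, δ, C, S0, h1, h2, h3, h4, h5, h6⟩ :=
    exists_round {i // i ∈ Z} N0 (log ρ + d * (N0 * max B 0))
  refine ⟨⟨Feas, δ, S0, C, kmin / (2 * ((V.card : ℝ) + 1)), by positivity, h2,
    ⟨h1, h3, h4, h5⟩, ?_⟩⟩
  intro a ha
  obtain ⟨ε0, hε0, hround⟩ := h6 a ha
  refine ⟨ε0, hε0, fun x hx hout hin p hp hnear => ?_⟩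
  obtain ⟨hC, hform⟩ := hround (res Z x) hin p hp
    (near_max ⟨h1, h3, h4, h5⟩ (fun i => hx _) hnear)
  obtain ⟨g, hg⟩ : ∃ g : (Fin d → ℕ) → ℝ, g = fun c => ∏ j, x j ^ c j := ⟨_, rfl⟩
  have hgpos : ∀ c, 0 < g c := fun c => by
    rw [hg]; exact Finset.prod_pos fun j _ => pow_pos (hx j) _
  have hlogg : ∀ c, log (g c) = ∑ j, (c j : ℝ) * log (x j) := by
    intro c; rw [hg, log_prod]
    · exact Finset.sum_congr rfl fun j _ => log_pow _ _
    · exact fun j _ => (pow_pos (hx j) _).ne'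
  obtain ⟨u, hu⟩ : ∃ u : (Fin d → ℕ) → (Fin d → ℕ) → {i // i ∈ Z} → ℤ,
      u = fun s t i => (t i : ℤ) - (s i : ℤ) := ⟨_, rfl⟩
  have huN : ∀ s ∈ V, ∀ t ∈ V, ∀ i, |u s t i| ≤ (N0 : ℤ) := by
    intro s hs t ht i
    have := hbound s hs (i : Fin d); have := hbound t ht (i : Fin d)
    rw [hu, abs_le]
    simp only
    constructor <;> omega
  have hdiff : ∀ s t, ∑ i, (u s t i : ℝ) * p.1 i = pot Z p.1 t - pot Z p.1 s := by
    intro s t
    rw [pot, pot, ← Finset.sum_sub_distrib, hu]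
    refine Finset.sum_congr rfl fun i _ => ?_
    push_cast; ring
  have hdom : ∀ s ∈ V, ∀ t ∈ V, pot Z p.1 s < pot Z p.1 t → ρ * g s ≤ g t := by
    intro s hs t ht hlt
    have h := (hform (u s t) (huN s hs t ht)).2 (by rw [hdiff]; linarith)
    have e : ∑ i, (u s t i : ℝ) * log (res Z x i) =
        ∑ j ∈ Z, ((t j : ℝ) - s j) * log (x j) := by
      rw [← Finset.sum_coe_sort Z, hu]
      refine Finset.sum_congr rfl fun i _ => ?_
      simp [res]
    rw [e] at h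
    have hsplit : log (g t) - log (g s) = (∑ j ∈ Z, ((t j : ℝ) - s j) * log (x j)) +
        ∑ j ∈ Finset.univ \ Z, ((t j : ℝ) - s j) * log (x j) := by
      rw [hlogg, hlogg, ← Finset.sum_sub_distrib, add_comm,
        Finset.sum_sdiff (Finset.subset_univ Z)]
      exact Finset.sum_congr rfl fun j _ => by ring
    have hrest : |∑ j ∈ Finset.univ \ Z, ((t j : ℝ) - s j) * log (x j)| ≤
        d * (N0 * max B 0) := by
      refine le_trans (Finset.abs_sum_le_sum_abs _ _) ?_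
      have hj : ∀ j ∈ Finset.univ \ Z,
          |((t j : ℝ) - s j) * log (x j)| ≤ (N0 : ℝ) * max B 0 := by
        intro j hj
        rw [abs_mul]
        refine mul_le_mul ?_ (le_trans (hout j (Finset.mem_sdiff.mp hj).2) (le_max_left _ _))
          (abs_nonneg _) (Nat.cast_nonneg _)
        have a1 : (t j : ℝ) ≤ N0 := by exact_mod_cast hbound t ht j
        have a2 : (s j : ℝ) ≤ N0 := by exact_mod_cast hbound s hs j
        have a3 : (0 : ℝ) ≤ t j := Nat.cast_nonneg _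
        have a4 : (0 : ℝ) ≤ s j := Nat.cast_nonneg _
        rw [abs_le]; constructor <;> linarith
      refine le_trans (Finset.sum_le_card_nsmul _ _ _ hj) ?_
      rw [nsmul_eq_mul]
      refine mul_le_mul_of_nonneg_right ?_
        (mul_nonneg (Nat.cast_nonneg _) (le_max_right _ _))
      have : (Finset.univ \ Z).card ≤ d := by simpa using Finset.card_le_univ (Finset.univ \ Z)
      exact_mod_cast this
    have hlog : log (ρ * g s) ≤ log (g t) := by
      rw [log_mul hρ0.ne' (hgpos s).ne']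
      linarith [(abs_le.mp hrest).1]
    exact (log_le_log_iff (mul_pos hρ0 (hgpos s)) (hgpos t)).mp hlog
  have hflux := flux (R := R) (k := k) (g := g) (φ := pot Z p.1) V hV hwr hk0 hk1 hk2
    (fun c _ => hgpos c) hdom hρ hρ0
  have hpair : pairing R k Z p.1 x =
      ∑ e ∈ R, k e * g e.1 * (pot Z p.1 e.2 - pot Z p.1 e.1) := by
    simp only [pairing, massAction, pot, Finset.mul_sum, ← Finset.sum_sub_distrib]
    rw [Finset.sum_comm]
    refine Finset.sum_congr rfl fun e _ => Finset.sum_congr rfl fun i _ => ?_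
    rw [hg]; ring
  refine ⟨hC, fun i => ?_, ?_, fun gmin hg0 hgmin => ?_⟩
  · have hN : 1 ≤ N0 := by rw [hN0]; exact le_max_right _ _
    have h := (hform (fun j => if j = i then 1 else 0) (fun j => by
      split_ifs <;> simp <;> omega)).1
    simpa using h
  · rw [hpair]
    have h0 : 0 ≤ down R k g (pot Z p.1) := Finset.sum_nonneg fun e he =>
      mul_nonneg (mul_nonneg (hk e he).le (hgpos _).le) (le_max_right _ _)
    linarith [hflux.1]
  · by_cases hall : ∀ e ∈ R, pot Z p.1 e.2 = pot Z p.1 e.1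
    · exact Or.inl hall
    · right
      simp only [not_forall] at hall
      obtain ⟨e, he, hne⟩ := hall
      have h1 : 1 ≤ |pot Z p.1 e.2 - pot Z p.1 e.1| := by
        rw [← hdiff]
        refine ((hform (u e.1 e.2) (huN _ (hV e he).1 _ (hV e he).2)).1).resolve_left ?_
        rw [hdiff]; exact sub_ne_zero.mpr hne
      have hV' : ∀ c ∈ V, gmin ≤ g c := by
        intro c hc
        rw [hVdef, mem_union, mem_image, mem_image] at hc
        rw [hg]
        rcases hc with ⟨e', he', rfl⟩ | ⟨e', he', rfl⟩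
        · exact (hgmin e' he').1
        · exact (hgmin e' he').2
      have h2 := hflux.2 gmin hV' hg0 ⟨e, he, h1⟩
      rw [hpair]
      have : kmin / (2 * ((V.card : ℝ) + 1)) * gmin = kmin * gmin / ((V.card : ℝ) + 1) / 2 := by
        field_simp
      linarith [hflux.1]

end

end Vale.Agent.P072
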