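import Vale.Agent.P072.Core

/-!
# Rounding of logarithmic coordinates as the gradient of a convex function

`exists_round` packages the nested scales: a family of affine functions `x ↦ μ·x - q` whose
near-maximisers `μ` are roundings of `log x` with respect to all bounded integer forms.
-/

namespace Vale.Agent.P072

open Finset Real Filter

noncomputable section

/-- value of an affine function -/
def val {ι : Type*} [Fintype ι] (x : ι → ℝ) (p : (ι → ℝ) × ℝ) : ℝ := (∑ i, x i * p.1 i) - p.2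

lemma exists_big_L (d N0 : ℕ) (R : ℝ) :
    ∃ L : ℝ, 1 ≤ L ∧ 4 * (nrm d N0 0 : ℝ) ^ (d + 2) ≤ L ∧
      4 * ((d : ℝ) + 1) *
          ((3 * (((2 * nrm d N0 0 + 1) ^ (d + 1) : ℕ) : ℝ) + 1) * L ^ (2 ^ (d + 1) + 1))
        ≤ exp (L - 1) ∧
      3 * (N0 : ℝ) * d + R ≤ L := by
  have h1 := (tendsto_exp_div_pow_atTop (2 ^ (d + 1) + 1)).eventually_ge_atTop
    (4 * ((d : ℝ) + 1) * (3 * (((2 * nrm d N0 0 + 1) ^ (d + 1) : ℕ) : ℝ) + 1) * exp 1)
  obtain ⟨L, ⟨⟨h2, h3⟩, h4⟩, h5⟩ := (((h1.and (eventually_ge_atTop (1 : ℝ))).and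
    (eventually_ge_atTop (4 * (nrm d N0 0 : ℝ) ^ (d + 2)))).and
    (eventually_ge_atTop (3 * (N0 : ℝ) * d + R))).exists
  refine ⟨L, h3, h4, ?_, h5⟩
  have hp : (0 : ℝ) < L ^ (2 ^ (d + 1) + 1) := pow_pos (lt_of_lt_of_le one_pos h3) _
  rw [le_div_iff₀ hp] at h2
  rw [exp_sub, le_div_iff₀ (exp_pos _)]
  linarith

variable (ι : Type) [Fintype ι]

theorem exists_round (N0 : ℕ) (R : ℝ) :
    ∃ (Feas : Set ((ι → ℝ) × ℝ)) (δ C S0 : ℝ), 0 < δ ∧ 0 ≤ C ∧ 1 ≤ S0 ∧
      (∀ p ∈ Feas, δ * ∑ i, exp (p.1 i) ≤ p.2) ∧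
      (∀ s : ℝ, (s = 0 ∨ S0 ≤ |s|) →
        ∃ q, ((fun _ => s), q) ∈ Feas ∧ q ≤ (Fintype.card ι : ℝ) * exp s) ∧
      (∀ a > 0, ∃ ε0 > 0, ∀ x : ι → ℝ, (∀ i, a ≤ x i) → ∀ p ∈ Feas,
        (∀ p' ∈ Feas, val x p' ≤ val x p + ε0) →
          (∀ i, |log (x i) - p.1 i| ≤ C) ∧
          ∀ u : ι → ℤ, (∀ i, |u i| ≤ (N0 : ℤ)) →
            ((∑ i, (u i : ℝ) * p.1 i = 0 ∨ 1 ≤ |∑ i, (u i : ℝ) * p.1 i|) ∧
              (0 < ∑ i, (u i : ℝ) * p.1 i → R ≤ ∑ i, (u i : ℝ) * log (x i)))) := by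
  classical
  obtain ⟨L, hL1, hLlam, hLbig, hLR⟩ := exists_big_L (Fintype.card ι) (max N0 1) (max R 0)
  obtain ⟨P, hP⟩ : ∃ P : Par, P = ⟨Fintype.card ι, max N0 1, L, le_max_right _ _, hL1⟩ :=
    ⟨_, rfl⟩
  have hd : P.d = Fintype.card ι := by rw [hP]
  have hN : P.N0 = max N0 1 := by rw [hP]
  have hLeq : P.L = L := by rw [hP]
  have hB : Big P := by
    constructor
    · simp only [Par.Lam, hd, hN, hLeq]; exact hLlam
    · simp only [Par.T', Par.card, Par.Lam, Par.top, hd, hN, hLeq]; exact hLbig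
  obtain ⟨e0⟩ : Nonempty (Fin P.d ≃ ι) := ⟨(Fintype.equivFinOfCardEq hd.symm).symm⟩
  refine ⟨{p | ∃ m, Ok P m ∧ ∃ σ : Fin P.d ≃ ι, (∀ i, p.1 i = m (σ.symm i)) ∧
      p.2 = ∑ j ∈ range P.d, wt P m j * exp (m j)},
    exp (-(P.L ^ P.top)), 3 * P.L ^ P.top, P.L ^ P.top, exp_pos _, by
      have := pow_pos (L_pos P) P.top; linarith, one_le_pow₀ P.hL, ?_, ?_, ?_⟩
  · rintro p ⟨m, hm, σ, hp1, hp2⟩
    rw [hp2, Finset.sum_range, Finset.mul_sum]
    rw [← σ.sum_comp (fun i => exp (-(P.L ^ P.top)) * exp (p.1 i))]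
    refine Finset.sum_le_sum fun j _ => ?_
    rw [hp1, σ.symm_apply_apply]
    refine mul_le_mul_of_nonneg_right ?_ (exp_pos _).le
    unfold wt
    split_ifs
    · rw [exp_le_exp, neg_le_neg_iff]
      refine L_pow_mono P ?_
      have := lo_lt_mid P m (k := j) j.isLt.le
      have := hi_le_top P m (k := j) j.isLt.le
      omega
    · rw [exp_le_one_iff]; have := pow_pos (L_pos P) P.top; linarith
  · intro s hs
    have hok : Ok P (fun _ => s) := by
      refine ⟨fun _ _ => le_rfl, fun k hk => ?_⟩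
      rcases k with _ | k
      · rcases hs with hs | hs
        · left; unfold Pin; subst hs; exact isThr_zero (P.one_le_M _) _ _
        · refine Or.inr fun θ hθ => ?_
          rw [isThr_nil hθ, sub_zero]
          refine le_trans (L_pow_mono P ?_) hs
          have := lo_lt_mid P (fun _ => s) (k := 0) (Nat.zero_le _)
          have := hi_le_top P (fun _ => s) (k := 0) (Nat.zero_le _)
          omega
      · exact Or.inl (isThr_prev (P.one_le_M _) (fun _ => s) k)
    refine ⟨∑ j ∈ range P.d, wt P (fun _ => s) j * exp s, ⟨fun _ => s, hok, e0, fun _ => rfl, rfl⟩,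
      ?_⟩
    calc ∑ j ∈ range P.d, wt P (fun _ => s) j * exp s ≤ ∑ _j ∈ range P.d, exp s :=
          Finset.sum_le_sum fun j _ => mul_le_of_le_one_left (exp_pos _).le (wt_le_one P _ _)
      _ = _ := by simp [hd]
  · intro a ha
    refine ⟨a * (exp (-(3 * P.L ^ P.top)) / (8 * (P.T' + 1))), ?_, ?_⟩
    · have := one_le_T' P; positivity
    rintro x hx p ⟨m, hm, σ, hp1, hp2⟩ hmax
    obtain ⟨y, hy⟩ : ∃ y : ℕ → ℝ, y = fun j => if h : j < P.d then x (σ ⟨j, h⟩) else 1 :=
      ⟨_, rfl⟩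
    have hval : ∀ (m' : ℕ → ℝ) (τ : Fin P.d ≃ ι) (y' : ℕ → ℝ),
        (∀ j : Fin P.d, y' j = x (τ j)) →
        J P y' m' = val x ((fun i => m' (τ.symm i)),
          ∑ j ∈ range P.d, wt P m' j * exp (m' j)) := by
      intro m' τ y' hy'
      unfold J val
      rw [Finset.sum_sub_distrib]
      congr 1
      rw [Finset.sum_range, ← τ.sum_comp]
      refine Finset.sum_congr rfl fun j _ => ?_
      simp [hy']
    have hnear : NearMax P y m (a * (exp (-(3 * P.L ^ P.top)) / (8 * (P.T' + 1)))) := by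
      intro m' hm' b hb c hc
      have h0 : J P y m = val x p := by
        rw [hval m σ y (fun j => by simp [hy])]
        congr 1
        exact Prod.ext (funext fun i => (hp1 i).symm) hp2.symm
      obtain ⟨τ, hτ⟩ : ∃ τ : Fin P.d ≃ ι, τ = (Equiv.swap (⟨b, hb⟩ : Fin P.d) ⟨c, hc⟩).trans σ :=
        ⟨_, rfl⟩
      rw [h0, hval m' τ]
      · exact hmax _ ⟨m', hm', τ, fun _ => rfl, rfl⟩
      · intro j
        rw [hτ, Equiv.trans_apply, Function.comp_apply, hy]
        have e : Equiv.swap b c (j : ℕ) =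
            ((Equiv.swap (⟨b, hb⟩ : Fin P.d) ⟨c, hc⟩ j : Fin P.d) : ℕ) := by
          simp only [Equiv.swap_apply_def, Fin.ext_iff]
          split_ifs <;> rfl
        simp only [e, Fin.is_lt, dite_true]
    obtain ⟨E, hE⟩ : ∃ E, E = P.L ^ lo P m P.d := ⟨_, rfl⟩
    have hb : ∀ j : Fin P.d, |log (x (σ j)) - m j| ≤ 3 * E := by
      intro j
      have h := bias hB (y := y) (m := m) (fun i hi => by
        simp only [hy, hi, dite_true]; exact lt_of_lt_of_le ha (hx _)) hm hnear j.isLt (by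
        simp only [hy, j.isLt, dite_true]
        refine mul_le_mul_of_nonneg_right (hx _) ?_
        have := one_le_T' P; positivity)
      simpa [hy, hE] using h
    have hEtop : E ≤ P.L ^ P.top := by
      rw [hE]; refine L_pow_mono P ?_
      have := gap_two P m (k := P.d) le_rfl
      have := hi_le_top P m (k := P.d) le_rfl
      omega
    refine ⟨fun i => ?_, fun u hu => ?_⟩
    · have h := hb (σ.symm i)
      rw [σ.apply_symm_apply, ← hp1] at h
      linarith
    obtain ⟨b, hbdef⟩ : ∃ b : Fin P.d → ℤ, b = fun j => u (σ j) := ⟨_, rfl⟩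
    have hbN : ∀ j, |b j| ≤ (nrm P.d P.N0 P.d : ℤ) := by
      intro j
      rw [nrm_self, hbdef, hN]
      exact le_trans (hu _) (by push_cast; exact le_max_left _ _)
    have hsum : ∑ i, (u i : ℝ) * p.1 i = ∑ j, (b j : ℝ) * m j := by
      rw [← σ.sum_comp]
      simp [hbdef, hp1]
    have hsep := sep P hm le_rfl b hbN
    rw [← hsum] at hsep
    obtain ⟨z, hz⟩ : ∃ z, z = ∑ i, (u i : ℝ) * p.1 i := ⟨_, rfl⟩
    rw [← hz] at hsep ⊢
    have hlamd : (P.Lam : ℝ) ^ P.d ≤ P.L := by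
      refine le_trans ?_ (L_ge_one_lam hB)
      exact pow_le_pow_right₀ (by exact_mod_cast P.one_le_Lam) (by omega)
    have hlam0 : (0 : ℝ) < (P.Lam : ℝ) ^ P.d := by
      have : (1 : ℝ) ≤ P.Lam := by exact_mod_cast P.one_le_Lam
      positivity
    have hE1 : P.L ≤ E := by
      rw [hE]
      calc P.L = P.L ^ 1 := (pow_one _).symm
        _ ≤ _ := L_pow_mono P (one_le_lo P m le_rfl)
    have hbigform : z ≠ 0 → P.L * E ≤ |z| := by
      intro hz0
      have h := hsep.resolve_left hz0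
      refine le_of_mul_le_mul_left (le_trans ?_ h) hlam0
      calc (P.Lam : ℝ) ^ P.d * (P.L * E) ≤ P.L * (P.L * E) :=
            mul_le_mul_of_nonneg_right hlamd (by
              have := L_pos P; have : 0 ≤ E := le_trans this.le hE1; positivity)
        _ = P.L ^ (lo P m P.d + 2) := by rw [hE]; ring
        _ ≤ _ := L_pow_mono P (gap_two P m le_rfl)
    have hE1' : 1 ≤ E := le_trans P.hL hE1
    refine ⟨?_, fun hpos => ?_⟩
    · rcases eq_or_ne z 0 with h | h
      · exact Or.inl h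
      · exact Or.inr (le_trans (one_le_mul_of_one_le_of_one_le P.hL hE1') (hbigform h))
    · have hlow := hbigform (ne_of_gt hpos)
      rw [abs_of_pos hpos] at hlow
      have hdiff : |∑ i, (u i : ℝ) * log (x i) - z| ≤ P.N0 * P.d * (3 * E) := by
        rw [hz, ← Finset.sum_sub_distrib]
        refine le_trans (Finset.abs_sum_le_sum_abs _ _) ?_
        have : ∀ i ∈ (Finset.univ : Finset ι),
            |(u i : ℝ) * log (x i) - (u i : ℝ) * p.1 i| ≤ (P.N0 : ℝ) * (3 * E) := by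
          intro i _
          rw [← mul_sub, abs_mul]
          refine mul_le_mul ?_ ?_ (abs_nonneg _) (Nat.cast_nonneg _)
          · have h1 : |u i| ≤ (P.N0 : ℤ) := by
              rw [hN]; exact le_trans (hu i) (by push_cast; exact le_max_left _ _)
            exact_mod_cast h1
          · have h := hb (σ.symm i)
            rwa [σ.apply_symm_apply, ← hp1] at h
        refine le_trans (Finset.sum_le_card_nsmul _ _ _ this) (le_of_eq ?_)
        simp [hd]; ring
      have hR : 3 * (P.N0 : ℝ) * P.d + max R 0 ≤ P.L := by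
        rw [hN, hd, hLeq]; exact hLR
      have h1 : (3 * (P.N0 : ℝ) * P.d + max R 0) * E ≤ P.L * E :=
        mul_le_mul_of_nonneg_right hR (by linarith)
      have h2 : max R 0 ≤ max R 0 * E := le_mul_of_one_le_right (le_max_right _ _) hE1'
      have h3 := (abs_le.mp hdiff).1
      linarith [le_max_left R 0]

end

end Vale.Agent.P072
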