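import Mathlib

/-!
# Nested scales for rounded logarithmic coordinates

A vector `m 0 ≥ m 1 ≥ …` of real numbers is admissible if each entry either lies on a threshold
determined by the previous ones (a rational combination with bounded integer coefficients) or is
far away from all of them, at a distance given by a nested system of scales.
-/

namespace Vale.Agent.P072

open Finset

noncomputable section

/-- coefficient bounds: `nrm d N0 d = N0`, `nrm d N0 k = 2 * (nrm d N0 (k+1))^2 + 1` -/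
def nrm (d N0 k : ℕ) : ℕ := (fun n => 2 * n ^ 2 + 1)^[d - k] N0

lemma nrm_self (d N0 : ℕ) : nrm d N0 d = N0 := by simp [nrm]

lemma nrm_succ {d k : ℕ} (N0 : ℕ) (hk : k < d) :
    nrm d N0 k = 2 * (nrm d N0 (k + 1)) ^ 2 + 1 := by
  unfold nrm
  have h : d - k = (d - (k + 1)) + 1 := by omega
  rw [h, Function.iterate_succ_apply']

lemma nrm_le_step {d k : ℕ} (N0 : ℕ) (hk : k < d) : nrm d N0 (k + 1) ≤ nrm d N0 k := by
  rw [nrm_succ N0 hk]; nlinarith

lemma one_le_nrm {d N0 : ℕ} (hN : 1 ≤ N0) (k : ℕ) : 1 ≤ nrm d N0 k := by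
  unfold nrm
  induction (d - k) with
  | zero => simpa using hN
  | succ n ih => rw [Function.iterate_succ_apply']; omega

lemma nrm_le_zero {d N0 : ℕ} : ∀ {k : ℕ}, k ≤ d → nrm d N0 k ≤ nrm d N0 0 := by
  intro k hk
  induction k with
  | zero => exact le_rfl
  | succ n ih => exact le_trans (nrm_le_step N0 (by omega)) (ih (by omega))

/-- thresholds determined by the first `k` values -/
def IsThr (N : ℕ) (m : ℕ → ℝ) (k : ℕ) (θ : ℝ) : Prop :=
  ∃ (s : ℤ) (a : Fin k → ℤ), s ≠ 0 ∧ |s| ≤ (N : ℤ) ∧ (∀ j, |a j| ≤ (N : ℤ)) ∧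
    (s : ℝ) * θ + ∑ j, (a j : ℝ) * m j = 0

lemma IsThr.congr {N : ℕ} {m m' : ℕ → ℝ} {k : ℕ} {θ : ℝ} (h : ∀ j < k, m j = m' j)
    (ht : IsThr N m k θ) : IsThr N m' k θ := by
  obtain ⟨s, a, hs, hsN, haN, he⟩ := ht
  refine ⟨s, a, hs, hsN, haN, ?_⟩
  rw [← he]
  congr 1
  exact Finset.sum_congr rfl fun j _ => by rw [h j j.isLt]

lemma isThr_congr {N : ℕ} {m m' : ℕ → ℝ} {k : ℕ} {θ : ℝ} (h : ∀ j < k, m j = m' j) :
    IsThr N m k θ ↔ IsThr N m' k θ :=
  ⟨IsThr.congr h, IsThr.congr fun j hj => (h j hj).symm⟩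

/-- the previous value is a threshold -/
lemma isThr_prev {N : ℕ} (hN : 1 ≤ N) (m : ℕ → ℝ) (k : ℕ) : IsThr N m (k + 1) (m k) := by
  refine ⟨1, fun j => if (j : ℕ) = k then -1 else 0, one_ne_zero, ?_, ?_, ?_⟩
  · simp; exact_mod_cast hN
  · intro j
    by_cases h : (j : ℕ) = k <;> simp [h]; exact_mod_cast hN
  · rw [Finset.sum_eq_single (⟨k, by omega⟩ : Fin (k + 1))]
    · simp
    · intro j _ hj
      have : (j : ℕ) ≠ k := fun e => hj (Fin.ext e)
      simp [this]
    · simp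

/-- zero is a threshold -/
lemma isThr_zero {N : ℕ} (hN : 1 ≤ N) (m : ℕ → ℝ) (k : ℕ) : IsThr N m k 0 := by
  refine ⟨1, fun _ => 0, one_ne_zero, ?_, ?_, ?_⟩
  · simp; exact_mod_cast hN
  · intro j; simp
  · simp

lemma isThr_nil {N : ℕ} {m : ℕ → ℝ} {θ : ℝ} (h : IsThr N m 0 θ) : θ = 0 := by
  obtain ⟨s, a, hs, -, -, he⟩ := h
  simp at he
  rcases he with he | he
  · exact absurd he hs
  · exact he

/-- parameters of the scale system -/
structure Par where
  d : ℕ
  N0 : ℕ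
  L : ℝ
  hN0 : 1 ≤ N0
  hL : 1 ≤ L

variable (P : Par)

/-- bound on coefficients used at step `k` -/
def Par.M (k : ℕ) : ℕ := nrm P.d P.N0 (k + 1)

/-- crude bound for all coefficient bounds -/
def Par.Lam : ℕ := nrm P.d P.N0 0

lemma Par.one_le_M (k : ℕ) : 1 ≤ P.M k := one_le_nrm P.hN0 _

lemma Par.M_le_Lam {k : ℕ} (hk : k < P.d) : P.M k ≤ P.Lam := nrm_le_zero (by omega)

lemma Par.one_le_Lam : 1 ≤ P.Lam := one_le_nrm P.hN0 _

/-- position `k` is pinned -/
def Pin (m : ℕ → ℝ) (k : ℕ) : Prop := IsThr (P.M k) m k (m k)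

lemma pin_congr {m m' : ℕ → ℝ} {k : ℕ} (h : ∀ j ≤ k, m j = m' j) : Pin P m k ↔ Pin P m' k := by
  unfold Pin
  rw [← h k le_rfl]
  exact isThr_congr fun j hj => h j hj.le

open Classical in
/-- exponent interval `(lo, hi)` reached after `k` steps -/
def st (m : ℕ → ℝ) : ℕ → ℕ × ℕ
  | 0 => (1, 2 ^ (P.d + 1) + 1)
  | k + 1 =>
    if Pin P m k then (((st m k).1 + (st m k).2) / 2, (st m k).2)
    else ((st m k).1, ((st m k).1 + (st m k).2) / 2)

/-- lower exponent -/
def lo (m : ℕ → ℝ) (k : ℕ) : ℕ := (st P m k).1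
/-- upper exponent -/
def hi (m : ℕ → ℝ) (k : ℕ) : ℕ := (st P m k).2
/-- middle exponent -/
def mid (m : ℕ → ℝ) (k : ℕ) : ℕ := (lo P m k + hi P m k) / 2
/-- the scale used at step `k` -/
def W (m : ℕ → ℝ) (k : ℕ) : ℝ := P.L ^ mid P m k
/-- the top exponent -/
def Par.top : ℕ := 2 ^ (P.d + 1) + 1

lemma lo_succ_pin {m : ℕ → ℝ} {k : ℕ} (h : Pin P m k) :
    lo P m (k + 1) = mid P m k ∧ hi P m (k + 1) = hi P m k := by
  simp [lo, hi, mid, st, h]

lemma lo_succ_free {m : ℕ → ℝ} {k : ℕ} (h : ¬Pin P m k) :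
    lo P m (k + 1) = lo P m k ∧ hi P m (k + 1) = mid P m k := by
  simp [lo, hi, mid, st, h]

lemma st_congr {m m' : ℕ → ℝ} : ∀ {k : ℕ}, (∀ j < k, m j = m' j) → st P m k = st P m' k := by
  intro k
  induction k with
  | zero => intro _; rfl
  | succ n ih =>
    intro h
    have h1 := ih fun j hj => h j (Nat.lt_succ_of_lt hj)
    have h2 : Pin P m n ↔ Pin P m' n := pin_congr P fun j hj => h j (Nat.lt_succ_of_le hj)
    by_cases hp : Pin P m n
    · simp [st, h1, hp, h2.mp hp]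
    · have hp' : ¬Pin P m' n := fun e => hp (h2.mpr e)
      simp [st, h1, hp, hp']

lemma mid_congr {m m' : ℕ → ℝ} {k : ℕ} (h : ∀ j < k, m j = m' j) : mid P m k = mid P m' k := by
  simp [mid, lo, hi, st_congr P h]

lemma gap_ge (m : ℕ → ℝ) : ∀ {k : ℕ}, k ≤ P.d → lo P m k + 2 ^ (P.d + 1 - k) ≤ hi P m k := by
  intro k
  induction k with
  | zero => intro _; simp [lo, hi, st]; omega
  | succ n ih =>
    intro hn
    have h := ih (by omega)
    have e : P.d + 1 - n = (P.d + 1 - (n + 1)) + 1 := by omega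
    rw [e, pow_succ] at h
    by_cases hp : Pin P m n
    · rw [(lo_succ_pin P hp).1, (lo_succ_pin P hp).2, mid]; omega
    · rw [(lo_succ_free P hp).1, (lo_succ_free P hp).2, mid]; omega

lemma gap_two (m : ℕ → ℝ) {k : ℕ} (hk : k ≤ P.d) : lo P m k + 2 ≤ hi P m k := by
  have h := gap_ge P m hk
  have : 2 ^ 1 ≤ 2 ^ (P.d + 1 - k) := Nat.pow_le_pow_right (by norm_num) (by omega)
  omega

lemma lo_lt_mid (m : ℕ → ℝ) {k : ℕ} (hk : k ≤ P.d) :
    lo P m k + 1 ≤ mid P m k ∧ mid P m k + 1 ≤ hi P m k := by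
  have := gap_two P m hk
  unfold mid; omega

lemma lo_mono_step (m : ℕ → ℝ) {k : ℕ} (hk : k < P.d) :
    lo P m k ≤ lo P m (k + 1) ∧ hi P m (k + 1) ≤ hi P m k := by
  have := lo_lt_mid P m hk.le
  by_cases hp : Pin P m k
  · rw [(lo_succ_pin P hp).1, (lo_succ_pin P hp).2]; omega
  · rw [(lo_succ_free P hp).1, (lo_succ_free P hp).2]; omega

lemma lo_mono (m : ℕ → ℝ) {i j : ℕ} (hij : i ≤ j) (hj : j ≤ P.d) :
    lo P m i ≤ lo P m j ∧ hi P m j ≤ hi P m i := by
  induction j with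
  | zero => simp [Nat.le_zero.mp hij]
  | succ n ih =>
    rcases Nat.lt_or_eq_of_le hij with h | h
    · have h1 := ih (by omega) (by omega)
      have h2 := lo_mono_step P m (k := n) (by omega)
      omega
    · subst h; exact ⟨le_rfl, le_rfl⟩

lemma hi_le_top (m : ℕ → ℝ) {k : ℕ} (hk : k ≤ P.d) : hi P m k ≤ P.top :=
  (lo_mono P m (Nat.zero_le k) hk).2

lemma one_le_lo (m : ℕ → ℝ) {k : ℕ} (hk : k ≤ P.d) : 1 ≤ lo P m k :=
  (lo_mono P m (Nat.zero_le k) hk).1

lemma L_pos : 0 < P.L := lt_of_lt_of_le one_pos P.hL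

lemma L_pow_mono {a b : ℕ} (h : a ≤ b) : P.L ^ a ≤ P.L ^ b := pow_le_pow_right₀ P.hL h

lemma one_le_W (m : ℕ → ℝ) (k : ℕ) : 1 ≤ W P m k := one_le_pow₀ P.hL

lemma W_pos (m : ℕ → ℝ) (k : ℕ) : 0 < W P m k := lt_of_lt_of_le one_pos (one_le_W P m k)

/-- admissible value at position `k` -/
def Adm (m : ℕ → ℝ) (k : ℕ) : Prop :=
  Pin P m k ∨ ∀ θ, IsThr (P.M k) m k θ → W P m k ≤ |m k - θ|

/-- admissible vectors -/
def Ok (m : ℕ → ℝ) : Prop :=
  (∀ k, k + 1 < P.d → m (k + 1) ≤ m k) ∧ ∀ k < P.d, Adm P m k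

open Classical in
/-- weights -/
def wt (m : ℕ → ℝ) (k : ℕ) : ℝ := if Pin P m k then Real.exp (-(W P m k)) else 1

lemma wt_pos (m : ℕ → ℝ) (k : ℕ) : 0 < wt P m k := by
  unfold wt; split_ifs <;> positivity

lemma wt_le_one (m : ℕ → ℝ) (k : ℕ) : wt P m k ≤ 1 := by
  unfold wt; split_ifs
  · rw [Real.exp_le_one_iff]; linarith [W_pos P m k]
  · exact le_rfl

lemma wt_congr {m m' : ℕ → ℝ} {k : ℕ} (h : ∀ j ≤ k, m j = m' j) : wt P m k = wt P m' k := by
  have h1 : Pin P m k ↔ Pin P m' k := pin_congr P h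
  have h2 : W P m k = W P m' k := by rw [W, W, mid_congr P fun j hj => h j hj.le]
  by_cases hp : Pin P m k
  · simp [wt, h2, hp, h1.mp hp]
  · have hp' : ¬Pin P m' k := fun e => hp (h1.mpr e)
    simp [wt, hp, hp']

lemma W_congr {m m' : ℕ → ℝ} {k : ℕ} (h : ∀ j < k, m j = m' j) : W P m k = W P m' k := by
  rw [W, W, mid_congr P h]

lemma Ok.antitone {m : ℕ → ℝ} (h : Ok P m) {i j : ℕ} (hij : i ≤ j) (hj : j < P.d) :
    m j ≤ m i := by
  induction j with
  | zero => simp [Nat.le_zero.mp hij]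
  | succ n ih =>
    rcases Nat.lt_or_eq_of_le hij with h1 | h1
    · exact le_trans (h.1 n hj) (ih (by omega) (by omega))
    · subst h1; exact le_rfl

/-- separation: bounded integer forms in the first `k` values vanish or are large -/
theorem sep {m : ℕ → ℝ} (h : Ok P m) :
    ∀ {k : ℕ}, k ≤ P.d → ∀ a : Fin k → ℤ, (∀ j, |a j| ≤ (nrm P.d P.N0 k : ℤ)) →
      (∑ j, (a j : ℝ) * m j) = 0 ∨
        P.L ^ hi P m k ≤ (P.Lam : ℝ) ^ k * |∑ j, (a j : ℝ) * m j| := by
  intro k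
  induction k with
  | zero => intro _ a _; left; simp
  | succ n ih =>
    intro hn a ha
    have hn' : n < P.d := by omega
    have hLam : (1 : ℝ) ≤ P.Lam := by exact_mod_cast P.one_le_Lam
    have hpow : (1 : ℝ) ≤ (P.Lam : ℝ) ^ n := one_le_pow₀ hLam
    have hMle : P.M n ≤ nrm P.d P.N0 n := nrm_le_step P.N0 hn'
    obtain ⟨b, hb⟩ : ∃ b : Fin n → ℤ, b = fun j => a j.castSucc := ⟨_, rfl⟩
    have hsum : ∑ j, (a j : ℝ) * m j
        = (a (Fin.last n) : ℝ) * m n + ∑ j, (b j : ℝ) * m j := by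
      rw [Fin.sum_univ_castSucc, hb]; simp; ring
    obtain ⟨s, hs⟩ : ∃ s, s = a (Fin.last n) := ⟨_, rfl⟩
    rw [← hs] at hsum
    have hsM : |s| ≤ (P.M n : ℤ) := by rw [hs]; exact ha _
    have hbM : ∀ j, |b j| ≤ (P.M n : ℤ) := by intro j; rw [hb]; exact ha _
    by_cases hs0 : s = 0
    · have hb' : ∀ j, |b j| ≤ (nrm P.d P.N0 n : ℤ) :=
        fun j => le_trans (hbM j) (by exact_mod_cast hMle)
      rw [hsum, hs0]
      simp only [Int.cast_zero, zero_mul, zero_add]
      rcases ih hn'.le b hb' with h0 | h0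
      · exact Or.inl h0
      · right
        calc P.L ^ hi P m (n + 1) ≤ P.L ^ hi P m n := L_pow_mono P (lo_mono_step P m hn').2
          _ ≤ (P.Lam : ℝ) ^ n * |∑ j, (b j : ℝ) * m j| := h0
          _ ≤ _ := by
              rw [pow_succ]
              exact mul_le_mul_of_nonneg_right (le_mul_of_one_le_right (by positivity) hLam)
                (abs_nonneg _)
    · by_cases hp : Pin P m n
      · obtain ⟨s0, a0, hs00, hs0M, ha0M, he0⟩ := hp
        have hp : Pin P m n := ⟨s0, a0, hs00, hs0M, ha0M, he0⟩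
        have hc : ∀ j, |s0 * b j - s * a0 j| ≤ (nrm P.d P.N0 n : ℤ) := by
          intro j
          have h1 : |s0 * b j| ≤ (P.M n : ℤ) * P.M n := by
            rw [abs_mul]; exact mul_le_mul hs0M (hbM j) (abs_nonneg _) (by positivity)
          have h2 : |s * a0 j| ≤ (P.M n : ℤ) * P.M n := by
            rw [abs_mul]; exact mul_le_mul hsM (ha0M j) (abs_nonneg _) (by positivity)
          have h3 : (2 * (P.M n : ℤ) ^ 2 + 1) = (nrm P.d P.N0 n : ℤ) := by
            rw [nrm_succ P.N0 hn']; simp [Par.M]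
          have h4 := abs_sub (s0 * b j) (s * a0 j)
          nlinarith
        have hcomb : ∑ j, ((s0 * b j - s * a0 j : ℤ) : ℝ) * m j
            = (s0 : ℝ) * ((s : ℝ) * m n + ∑ j, (b j : ℝ) * m j) := by
          push_cast
          simp only [sub_mul, Finset.sum_sub_distrib, mul_assoc, ← Finset.mul_sum]
          linear_combination (-(s : ℝ)) * he0
        rcases ih hn'.le _ hc with h0 | h0
        · left
          rw [hcomb] at h0
          rw [hsum]
          exact (mul_eq_zero.mp h0).resolve_left (by exact_mod_cast hs00)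
        · right
          rw [hsum, (lo_succ_pin P hp).2]
          rw [hcomb, abs_mul] at h0
          have hs0' : |(s0 : ℝ)| ≤ P.Lam := by
            have : |s0| ≤ (P.Lam : ℤ) := le_trans hs0M (by exact_mod_cast P.M_le_Lam hn')
            exact_mod_cast this
          calc P.L ^ hi P m n ≤ _ := h0
            _ ≤ _ := by
              rw [pow_succ, ← mul_assoc]
              exact mul_le_mul_of_nonneg_right
                (mul_le_mul_of_nonneg_left hs0' (by positivity)) (abs_nonneg _)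
      · right
        rw [hsum, (lo_succ_free P hp).2]
        obtain ⟨θ, hθdef⟩ : ∃ θ, θ = -(∑ j, (b j : ℝ) * m j) / s := ⟨_, rfl⟩
        have hsR : (s : ℝ) ≠ 0 := by exact_mod_cast hs0
        have hθ : IsThr (P.M n) m n θ := by
          refine ⟨s, b, hs0, hsM, hbM, ?_⟩
          rw [hθdef]; field_simp; ring
        have hW := ((h.2 n hn').resolve_left hp) θ hθ
        have hform : (s : ℝ) * m n + ∑ j, (b j : ℝ) * m j = (s : ℝ) * (m n - θ) := by
          rw [hθdef]; field_simp; ring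
        rw [hform, abs_mul]
        have hs1 : (1 : ℝ) ≤ |(s : ℝ)| := by
          exact_mod_cast Int.one_le_abs hs0
        calc P.L ^ mid P m n = W P m n := rfl
          _ ≤ |m n - θ| := hW
          _ ≤ _ := by
            rw [← mul_assoc]
            refine le_mul_of_one_le_left (abs_nonneg _) ?_
            exact one_le_mul_of_one_le_of_one_le (one_le_pow₀ hLam) hs1

/-- distinct thresholds are far from each other -/
theorem thr_sep {m : ℕ → ℝ} (h : Ok P m) {k : ℕ} (hk : k < P.d) {θ θ' : ℝ}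
    (h1 : IsThr (P.M k) m k θ) (h2 : IsThr (P.M k) m k θ') (hne : θ ≠ θ') :
    P.L ^ hi P m k ≤ (P.Lam : ℝ) ^ (P.d + 2) * |θ - θ'| := by
  obtain ⟨s, a, hs, hsM, haM, he⟩ := h1
  obtain ⟨s', a', hs', hsM', haM', he'⟩ := h2
  have hc : ∀ j, |s' * a j - s * a' j| ≤ (nrm P.d P.N0 k : ℤ) := by
    intro j
    have h1 : |s' * a j| ≤ (P.M k : ℤ) * P.M k := by
      rw [abs_mul]; exact mul_le_mul hsM' (haM j) (abs_nonneg _) (by positivity)
    have h2 : |s * a' j| ≤ (P.M k : ℤ) * P.M k := by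
      rw [abs_mul]; exact mul_le_mul hsM (haM' j) (abs_nonneg _) (by positivity)
    have h3 : (2 * (P.M k : ℤ) ^ 2 + 1) = (nrm P.d P.N0 k : ℤ) := by
      rw [nrm_succ P.N0 hk]; simp [Par.M]
    have h4 := abs_sub (s' * a j) (s * a' j)
    nlinarith
  have hcomb : ∑ j, ((s' * a j - s * a' j : ℤ) : ℝ) * m j = (s : ℝ) * s' * (θ' - θ) := by
    push_cast
    simp only [sub_mul, Finset.sum_sub_distrib, mul_assoc, ← Finset.mul_sum]
    linear_combination (s' : ℝ) * he - (s : ℝ) * he'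
  have hLam : (1 : ℝ) ≤ P.Lam := by exact_mod_cast P.one_le_Lam
  rcases sep P h hk.le _ hc with h0 | h0
  · exfalso
    rw [hcomb] at h0
    have : θ' - θ = 0 := (mul_eq_zero.mp h0).resolve_left
      (mul_ne_zero (by exact_mod_cast hs) (by exact_mod_cast hs'))
    exact hne (by linarith)
  · rw [hcomb, abs_mul, abs_mul, abs_sub_comm] at h0
    have hb : ∀ z : ℤ, |z| ≤ (P.M k : ℤ) → |(z : ℝ)| ≤ P.Lam := by
      intro z hz
      have : |z| ≤ (P.Lam : ℤ) := le_trans hz (by exact_mod_cast P.M_le_Lam hk)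
      exact_mod_cast this
    calc P.L ^ hi P m k ≤ _ := h0
      _ ≤ (P.Lam : ℝ) ^ P.d * ((P.Lam : ℝ) * P.Lam * |θ - θ'|) := by
        refine mul_le_mul (pow_le_pow_right₀ hLam hk.le) ?_ (by positivity) (by positivity)
        exact mul_le_mul_of_nonneg_right
          (mul_le_mul (hb s hsM) (hb s' hsM') (abs_nonneg _) (by positivity)) (abs_nonneg _)
      _ = _ := by ring

/-- the vector that agrees with `m` before position `j0` and is constant afterwards -/
def flat (m : ℕ → ℝ) (j0 : ℕ) (s : ℝ) : ℕ → ℝ := fun j => if j < j0 then m j else s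

lemma flat_lt (m : ℕ → ℝ) {j0 j : ℕ} (s : ℝ) (h : j < j0) : flat m j0 s j = m j := if_pos h

lemma flat_ge (m : ℕ → ℝ) {j0 j : ℕ} (s : ℝ) (h : j0 ≤ j) : flat m j0 s j = s :=
  if_neg (Nat.not_lt.mpr h)

lemma flat_pin (m : ℕ → ℝ) (j0 : ℕ) (s : ℝ) {j : ℕ} (hj : j0 < j) :
    Pin P (flat m j0 s) j := by
  obtain ⟨i, rfl⟩ : ∃ i, j = i + 1 := ⟨j - 1, by omega⟩
  unfold Pin
  have : flat m j0 s (i + 1) = flat m j0 s i := by
    rw [flat_ge m s (by omega), flat_ge m s (by omega)]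
  rw [this]
  exact isThr_prev (P.one_le_M _) _ _

lemma ok_flat {m : ℕ → ℝ} (h : Ok P m) {j0 : ℕ} (hj0 : j0 < P.d) {s : ℝ}
    (hprev : ∀ i < j0, s ≤ m i)
    (hadm : IsThr (P.M j0) m j0 s ∨ ∀ θ, IsThr (P.M j0) m j0 θ → W P m j0 ≤ |s - θ|) :
    Ok P (flat m j0 s) := by
  refine ⟨fun k hk => ?_, fun k hk => ?_⟩
  · rcases Nat.lt_or_ge k j0 with h1 | h1
    · rw [flat_lt m s h1]
      rcases Nat.lt_or_ge (k + 1) j0 with h2 | h2
      · rw [flat_lt m s h2]; exact h.1 k hk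
      · rw [flat_ge m s h2]; exact hprev k h1
    · rw [flat_ge m s h1, flat_ge m s (by omega)]
  · rcases Nat.lt_trichotomy k j0 with h1 | h1 | h1
    · have e : ∀ j ≤ k, m j = flat m j0 s j := fun j hj => (flat_lt m s (by omega)).symm
      rcases h.2 k hk with h2 | h2
      · exact Or.inl ((pin_congr P e).mp h2)
      · refine Or.inr fun θ hθ => ?_
        rw [← W_congr P (fun j hj => e j hj.le), ← e k le_rfl]
        exact h2 θ ((isThr_congr fun j hj => e j hj.le).mpr hθ)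
    · subst h1
      have e : ∀ j < k, m j = flat m k s j := fun j hj => (flat_lt m s hj).symm
      have hs : flat m k s k = s := flat_ge m s le_rfl
      rcases hadm with h2 | h2
      · left
        unfold Pin
        rw [hs]
        exact h2.congr e
      · refine Or.inr fun θ hθ => ?_
        rw [← W_congr P e, hs]
        exact h2 θ ((isThr_congr e).mpr hθ)
    · exact Or.inl (flat_pin P m j0 s h1)

end

end Vale.Agent.P072
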