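import Vale.Agent.P072.Face

/-!
# The Lyapunov functions along trajectories
-/

namespace Vale.Agent.P072

open Finset Real Set

noncomputable section

variable {d : ℕ} {R : Finset ((Fin d → ℕ) × (Fin d → ℕ))} {k : (Fin d → ℕ) × (Fin d → ℕ) → ℝ}
  {Z : Finset (Fin d)} {B : ℝ}

lemma res_pos {x : Fin d → ℝ} (hx : ∀ i, 0 < x i) : ∀ i, 0 < res Z x i := fun i => hx i

lemma exists_min_pos {ι : Type} [Fintype ι] (x : ι → ℝ) (hx : ∀ i, 0 < x i) :
    ∃ a > (0 : ℝ), ∀ i, a ≤ x i := by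
  rcases isEmpty_or_nonempty ι with h | h
  · exact ⟨1, one_pos, fun i => h.elim i⟩
  · obtain ⟨i, hi⟩ := Finite.exists_min x
    exact ⟨x i, hx i, hi⟩

lemma sqrt_bound {ρ : ℝ} (h0 : 0 < ρ) (h1 : ρ ≤ 1) : ρ * (|log ρ| + 1) ≤ 3 * √ρ := by
  have hs : 0 < √ρ := sqrt_pos.mpr h0
  have hs1 : √ρ ≤ 1 := sqrt_le_one.mpr h1
  have h := abs_log_mul_self_lt (√ρ) hs hs1
  rw [log_sqrt h0.le, abs_mul, abs_div, abs_two, abs_of_pos hs] at h
  have hsq : √ρ * √ρ = ρ := mul_self_sqrt h0.le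
  have h2 : |log ρ| * √ρ ≤ 2 := by linarith
  have h3 : |log ρ| * √ρ * √ρ ≤ 2 * √ρ := mul_le_mul_of_nonneg_right h2 hs.le
  rw [mul_assoc, hsq] at h3
  nlinarith

/-- lower bound near the origin of the face -/
lemma Vsup_small_lower (D : FaceData R k Z B) {x : Fin d → ℝ} (hx : ∀ i, 0 < x i) {ρ : ℝ}
    (hρ0 : 0 < ρ) (hρ : ρ ≤ exp (-D.S0)) (hle : ∀ i ∈ Z, x i ≤ ρ) :
    -(3 * (Z.card : ℝ) * √ρ) ≤ Vsup D.Feas (res Z x) := by
  have hlog : log ρ ≤ -D.S0 := by
    have := log_le_log hρ0 hρ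
    rwa [log_exp] at this
  have h1 : ρ ≤ 1 := le_trans hρ (exp_le_one_iff.mpr (by linarith [D.nice.one_le]))
  have habs : |log ρ| = -log ρ := abs_of_nonpos (by linarith [D.nice.one_le])
  have h := diag_le D.nice (res_pos hx) (s := log ρ) (Or.inr (by rw [habs]; linarith))
  rw [exp_log hρ0, Fintype.card_coe] at h
  have hsum : ∑ i, res Z x i ≤ (Z.card : ℝ) * ρ := by
    have := Finset.sum_le_card_nsmul (Finset.univ : Finset {i // i ∈ Z}) (res Z x) ρ
      (fun i _ => hle i i.2)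
    simpa using this
  have h2 : log ρ * ((Z.card : ℝ) * ρ) ≤ log ρ * ∑ i, res Z x i :=
    mul_le_mul_of_nonpos_left hsum (by linarith [D.nice.one_le])
  have h3 := mul_le_mul_of_nonneg_left (sqrt_bound hρ0 h1) (Nat.cast_nonneg Z.card)
  rw [habs] at h3
  linarith

/-- upper bound near the origin of the face -/
lemma Vsup_small_upper (D : FaceData R k Z B) {x : Fin d → ℝ} (hx : ∀ i, 0 < x i)
    (hout : ∀ j, j ∉ Z → |log (x j)| ≤ B) (hsmall : ∀ i ∈ Z, x i ≤ exp (-(D.C + 1))) :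
    Vsup D.Feas (res Z x) ≤ -∑ i, res Z x i := by
  obtain ⟨a, ha, ha'⟩ := exists_min_pos (res Z x) (res_pos hx)
  obtain ⟨ε0, hε0, hkey⟩ := D.key a ha
  refine le_of_forall_pos_le_add fun e he => ?_
  obtain ⟨p, hp, hnear⟩ := exists_near D.nice (res Z x) (lt_min hε0 he)
  obtain ⟨hC, hdich, -, -⟩ := hkey x hx hout ha' p hp
    (by linarith [min_le_left ε0 e])
  have hμ : ∀ i, p.1 i ≤ -1 := by
    intro i
    have h1 := log_le_log (hx _) (hsmall i i.2)
    rw [log_exp] at h1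
    have h2 := (abs_le.mp (hC i)).1
    rcases hdich i with h | h
    · linarith
    · rcases le_abs'.mp h with h | h <;> linarith
  have hq : 0 ≤ p.2 :=
    le_trans (mul_nonneg D.nice.pos.le (Finset.sum_nonneg fun i _ => (exp_pos _).le))
      (D.nice.low p hp)
  have hs : ∑ i, res Z x i * p.1 i ≤ ∑ i, -res Z x i :=
    Finset.sum_le_sum fun i _ => by
      have := mul_le_mul_of_nonneg_left (hμ i) (res_pos (Z := Z) hx i).le
      linarith
  rw [Finset.sum_neg_distrib] at hs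
  have hv : val (res Z x) p ≤ -∑ i, res Z x i := by unfold val; linarith
  linarith [min_le_right ε0 e]

lemma massAction_continuous : Continuous (massAction R k) := by
  unfold massAction; fun_prop

lemma massAction_mem (x : Fin d → ℝ) : massAction R k x ∈ stoich R := by
  have e : massAction R k x = ∑ e ∈ R, (k e * ∏ j, x j ^ e.1 j) •
      (fun i => (e.2 i : ℝ) - (e.1 i : ℝ)) := by
    funext i; simp [massAction, Finset.sum_apply]
  rw [e]
  exact Submodule.sum_mem _ fun e he => Submodule.smul_mem _ _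
    (Submodule.subset_span ⟨e, he, rfl⟩)

lemma IsSolutionOn.continuousOn {x : ℝ → Fin d → ℝ} {I : Set ℝ} (h : IsSolutionOn R k x I) :
    ContinuousOn x I := fun t ht => (h t ht).continuousWithinAt

lemma IsSolutionOn.mono {x : ℝ → Fin d → ℝ} {I I' : Set ℝ} (h : IsSolutionOn R k x I)
    (hsub : I' ⊆ I) : IsSolutionOn R k x I' := fun t ht => (h t (hsub ht)).mono hsub

/-- solutions stay in their stoichiometric class -/
lemma sol_class {x : ℝ → Fin d → ℝ} {a b : ℝ} (hsol : IsSolutionOn R k x (Icc a b))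
    (hab : a ≤ b) : x b - x a ∈ stoich R := by
  by_contra h
  obtain ⟨f, hf, hker⟩ := Submodule.exists_dual_map_eq_bot_of_notMem h inferInstance
  have hzero : ∀ v ∈ stoich R, f v = 0 := by
    intro v hv
    have : f v ∈ (stoich R).map f := ⟨v, hv, rfl⟩
    rw [hker] at this
    exact (Submodule.mem_bot ℝ).mp this
  obtain ⟨F, hF⟩ : ∃ F, F = LinearMap.toContinuousLinearMap f := ⟨_, rfl⟩
  have hd : ∀ t ∈ Icc a b, HasDerivWithinAt (fun s => F (x s)) 0 (Icc a b) t := by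
    intro t ht
    have h1 := F.hasFDerivAt.comp_hasDerivWithinAt t (hsol t ht)
    have h2 : F (massAction R k (x t)) = 0 := by rw [hF]; exact hzero _ (massAction_mem _)
    rwa [h2] at h1
  have := (convex_Icc a b).norm_image_sub_le_of_norm_hasDerivWithin_le hd (C := 0)
    (fun t _ => by simp) (left_mem_Icc.mpr hab) (right_mem_Icc.mpr hab)
  simp only [zero_mul, norm_le_zero_iff] at this
  rw [← map_sub, hF] at this
  exact hf this

/-- decrease of the function of a face along a trajectory -/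
lemma face_decrease (D : FaceData R k Z B) {x : ℝ → Fin d → ℝ} {a b η : ℝ} (hab : a ≤ b)
    (hsol : IsSolutionOn R k x (Icc a b)) (hpos : ∀ t ∈ Icc a b, ∀ i, 0 < x t i)
    (hout : ∀ t ∈ Icc a b, ∀ j, j ∉ Z → |log (x t j)| ≤ B)
    (hextra : ∃ θ > (0 : ℝ), ∀ t ∈ Icc a b, ∀ p ∈ D.Feas,
      Vsup D.Feas (res Z (x t)) ≤ val (res Z (x t)) p + θ →
      (∀ i : {i // i ∈ Z}, |log (x t i) - p.1 i| ≤ D.C) →
      (∀ i : {i // i ∈ Z}, p.1 i = 0 ∨ 1 ≤ |p.1 i|) →
      pairing R k Z p.1 (x t) ≤ 0 →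
      (∀ gmin : ℝ, 0 ≤ gmin →
        (∀ e ∈ R, gmin ≤ ∏ j, x t j ^ e.1 j ∧ gmin ≤ ∏ j, x t j ^ e.2 j) →
        (∀ e ∈ R, pot Z p.1 e.2 = pot Z p.1 e.1) ∨
          pairing R k Z p.1 (x t) ≤ -(D.κ * gmin)) →
      pairing R k Z p.1 (x t) ≤ -η) :
    Vsup D.Feas (res Z (x b)) ≤ Vsup D.Feas (res Z (x a)) - η * (b - a) := by
  obtain ⟨θ, hθ, hextra⟩ := hextra
  have hc := hsol.continuousOn
  have hlo : ∀ i : {i // i ∈ Z}, ∃ l > (0 : ℝ), ∃ u, ∀ t ∈ Icc a b, l ≤ x t i ∧ x t i ≤ u := by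
    intro i
    have hci : ContinuousOn (fun t => x t i) (Icc a b) := fun t ht =>
      (continuous_apply (i : Fin d)).continuousAt.comp_continuousWithinAt (hc t ht)
    obtain ⟨t1, h1, h1'⟩ := isCompact_Icc.exists_isMinOn (nonempty_Icc.mpr hab) hci
    obtain ⟨t2, -, h2'⟩ := isCompact_Icc.exists_isMaxOn (nonempty_Icc.mpr hab) hci
    exact ⟨_, hpos t1 h1 i, _, fun t ht => ⟨h1' ht, h2' ht⟩⟩
  choose l hl u hlu using hlo
  obtain ⟨amin, hamin, hamin'⟩ := exists_min_pos l hl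
  obtain ⟨ε0, hε0, hkey⟩ := D.key amin hamin
  obtain ⟨M, hM⟩ : ∃ M, ∀ i, |log (l i)| + |log (u i)| + D.C ≤ M :=
    ⟨∑ i, (|log (l i)| + |log (u i)| + D.C), fun i =>
      Finset.single_le_sum (f := fun i => |log (l i)| + |log (u i)| + D.C)
        (fun j _ => by have := D.Cnonneg; positivity) (Finset.mem_univ i)⟩
  refine Vsup_decrease D.nice (y := fun t => res Z (x t))
    (F := fun t i => massAction R k (x t) i) (M := M) hab
    (fun t ht i => hpos t ht i) (fun i t ht => ?_) (fun i => ?_) (lt_min hε0 hθ) ?_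
  · exact (hasDerivWithinAt_pi.mp (hsol t ht)) i
  · exact fun t ht => (continuous_apply (i : Fin d)).continuousAt.comp_continuousWithinAt
      ((massAction_continuous.comp_continuousOn hc) t ht)
  · intro t ht p hp hnear
    have hin : ∀ i : {i // i ∈ Z}, amin ≤ x t i := fun i => le_trans (hamin' i) (hlu i t ht).1
    obtain ⟨h1, h2, h3, h4⟩ := hkey (x t) (hpos t ht) (hout t ht) hin p hp
      (by linarith [min_le_left ε0 θ])
    refine ⟨fun i => ?_, ?_⟩
    · have a1 := log_le_log (hl i) (hlu i t ht).1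
      have a2 := log_le_log (hpos t ht i) (hlu i t ht).2
      have := abs_le.mp (h1 i)
      rw [abs_le]
      constructor <;>
        linarith [hM i, neg_abs_le (log (l i)), le_abs_self (log (u i)),
          abs_nonneg (log (l i)), abs_nonneg (log (u i))]
    · exact hextra t ht p hp (by linarith [min_le_right ε0 θ]) h1 h2 h3 h4

lemma face_noninc (D : FaceData R k Z B) {x : ℝ → Fin d → ℝ} {a b : ℝ} (hab : a ≤ b)
    (hsol : IsSolutionOn R k x (Icc a b)) (hpos : ∀ t ∈ Icc a b, ∀ i, 0 < x t i)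
    (hout : ∀ t ∈ Icc a b, ∀ j, j ∉ Z → |log (x t j)| ≤ B) :
    Vsup D.Feas (res Z (x b)) ≤ Vsup D.Feas (res Z (x a)) := by
  have := face_decrease D (η := 0) hab hsol hpos hout
    ⟨1, one_pos, fun t _ p _ _ _ _ h3 _ => by linarith⟩
  linarith

/-- for flat `μ` the pairing is constant on the class -/
lemma val_flat {μ : {i // i ∈ Z} → ℝ} (hflat : ∀ e ∈ R, pot Z μ e.2 = pot Z μ e.1)
    {x c : Fin d → ℝ} (hxc : x - c ∈ stoich R) (q : ℝ) :
    val (res Z x) (μ, q) = val (res Z c) (μ, q) := by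
  have h : ∀ v ∈ stoich R, ∑ i, μ i * v i = 0 := by
    intro v hv
    induction hv using Submodule.span_induction with
    | mem v hv =>
      obtain ⟨e, he, rfl⟩ := hv
      have := hflat e he
      simp only [pot] at this
      simp only [mul_sub, Finset.sum_sub_distrib]
      linarith
    | zero => simp
    | add v w _ _ hv hw =>
      simp only [Pi.add_apply, mul_add, Finset.sum_add_distrib]
      linarith
    | smul r v _ hv =>
      have : ∑ i, μ i * (r • v) i = r * ∑ i, μ i * v i := by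
        rw [Finset.mul_sum]; exact Finset.sum_congr rfl fun i _ => by simp; ring
      rw [this, hv, mul_zero]
  have h1 := h _ hxc
  simp only [Pi.sub_apply, mul_sub, Finset.sum_sub_distrib] at h1
  unfold val res
  simp only [mul_comm] at h1 ⊢
  linarith

/-- strict decrease where the function exceeds all flat values -/
lemma face_strict (D : FaceData R k Z B) {x : ℝ → Fin d → ℝ} {a b gmin Λ θ : ℝ} (hab : a ≤ b)
    (hsol : IsSolutionOn R k x (Icc a b)) (hpos : ∀ t ∈ Icc a b, ∀ i, 0 < x t i)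
    (hout : ∀ t ∈ Icc a b, ∀ j, j ∉ Z → |log (x t j)| ≤ B) (hg0 : 0 ≤ gmin)
    (hgmin : ∀ t ∈ Icc a b, ∀ e ∈ R,
      gmin ≤ ∏ j, x t j ^ e.1 j ∧ gmin ≤ ∏ j, x t j ^ e.2 j)
    (hflat : ∀ t ∈ Icc a b, ∀ p ∈ D.Feas, (∀ e ∈ R, pot Z p.1 e.2 = pot Z p.1 e.1) →
      (∀ i : {i // i ∈ Z}, |log (x t i) - p.1 i| ≤ D.C) →
      (∀ i : {i // i ∈ Z}, p.1 i = 0 ∨ 1 ≤ |p.1 i|) → val (res Z (x t)) p ≤ Λ)
    (hθ : 0 < θ) (hhigh : ∀ t ∈ Icc a b, Λ + θ ≤ Vsup D.Feas (res Z (x t))) :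
    Vsup D.Feas (res Z (x b)) ≤ Vsup D.Feas (res Z (x a)) - D.κ * gmin * (b - a) := by
  refine face_decrease D hab hsol hpos hout ⟨θ / 2, half_pos hθ,
    fun t ht p hp hnear h1 h2 _ h4 => ?_⟩
  refine (h4 gmin hg0 (hgmin t ht)).resolve_left fun hall => ?_
  linarith [hflat t ht p hp hall h1 h2, hhigh t ht]

/-- on a face, a coordinate stays away from zero if the others do -/
lemma face_lower (D : FaceData R k Z B) {x : ℝ → Fin d → ℝ} {a b ρ0 : ℝ} (hab : a ≤ b)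
    (hsol : IsSolutionOn R k x (Icc a b)) (hpos : ∀ t ∈ Icc a b, ∀ i, 0 < x t i)
    (hρ0 : 0 < ρ0) (hρS : ρ0 ≤ exp (-D.S0)) (hρC : ρ0 ≤ exp (-(D.C + 1)))
    (hout : ∀ t ∈ Icc a b, (∀ i ∈ Z, x t i ≤ ρ0) → ∀ j, j ∉ Z → |log (x t j)| ≤ B)
    (hstart : ∃ i ∈ Z, ρ0 ≤ x a i) :
    ∀ t ∈ Icc a b, ∃ i ∈ Z, min ρ0 ((ρ0 / (3 * (Z.card : ℝ))) ^ 2) ≤ x t i := by
  intro t ht
  by_contra hcon
  simp only [not_exists, not_and, not_le] at hcon
  have hsmall : ∀ i ∈ Z, x t i < ρ0 := fun i hi => lt_of_lt_of_le (hcon i hi) (min_le_left _ _)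
  have hsub : Icc a t ⊆ Icc a b := Icc_subset_Icc le_rfl ht.2
  have hc : ∀ i, ContinuousOn (fun s => x s i) (Icc a t) := fun i s hs =>
    (continuous_apply i).continuousAt.comp_continuousWithinAt ((hsol.mono hsub).continuousOn s hs)
  obtain ⟨S, hSdef⟩ : ∃ S, S = ⋃ i ∈ Z, Icc a t ∩ (fun s => x s i) ⁻¹' Ici ρ0 := ⟨_, rfl⟩
  have hSclosed : IsClosed S := by
    rw [hSdef]
    exact isClosed_biUnion_finset fun i _ =>
      (hc i).preimage_isClosed_of_isClosed isClosed_Icc isClosed_Ici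
  have hmemS : ∀ s, s ∈ S ↔ ∃ i ∈ Z, s ∈ Icc a t ∧ ρ0 ≤ x s i := by
    intro s; rw [hSdef]; simp only [mem_iUnion, mem_inter_iff, Set.mem_preimage, Set.mem_Ici, exists_prop]
  have hne : S.Nonempty := by
    obtain ⟨i, hi, hi'⟩ := hstart
    exact ⟨a, (hmemS a).mpr ⟨i, hi, left_mem_Icc.mpr ht.1, hi'⟩⟩
  have hbdd : BddAbove S := ⟨t, fun s hs => ((hmemS s).mp hs).choose_spec.2.1.2⟩
  obtain ⟨t1, ht1def⟩ : ∃ t1, t1 = sSup S := ⟨_, rfl⟩
  obtain ⟨i1, hi1, ht1, hbig⟩ := (hmemS t1).mp (ht1def ▸ hSclosed.csSup_mem hne hbdd)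
  have ht1t : t1 < t := by
    rcases lt_or_eq_of_le ht1.2 with h | h
    · exact h
    · subst h; exact absurd hbig (not_le.mpr (hsmall i1 hi1))
  have hIoc : ∀ s ∈ Ioc t1 t, ∀ i ∈ Z, x s i ≤ ρ0 := by
    intro s hs i hi
    by_contra hlt
    have hsS : s ∈ S := (hmemS s).mpr ⟨i, hi, ⟨by linarith [ht1.1, hs.1], hs.2⟩, (not_le.mp hlt).le⟩
    have := le_csSup hbdd hsS
    rw [← ht1def] at this
    linarith [hs.1]
  have hIcc : ∀ s ∈ Icc t1 t, ∀ i ∈ Z, x s i ≤ ρ0 := by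
    intro s hs i hi
    have hcl : IsClosed (Icc t1 t ∩ (fun s => x s i) ⁻¹' Iic ρ0) :=
      ((hc i).mono (Icc_subset_Icc ht1.1 le_rfl)).preimage_isClosed_of_isClosed isClosed_Icc
        isClosed_Iic
    have hsubset : Ioc t1 t ⊆ Icc t1 t ∩ (fun s => x s i) ⁻¹' Iic ρ0 :=
      fun r hr => ⟨Ioc_subset_Icc_self hr, hIoc r hr i hi⟩
    have h2 := closure_minimal hsubset hcl
    rw [closure_Ioc ht1t.ne] at h2
    exact (h2 hs).2
  have hsub1 : Icc t1 t ⊆ Icc a b := Icc_subset_Icc ht1.1 ht.2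
  have hmono := face_noninc D ht1.2 (hsol.mono hsub1) (fun s hs => hpos s (hsub1 hs))
    (fun s hs => hout s (hsub1 hs) (hIcc s hs))
  have hup := Vsup_small_upper D (hpos t1 (hsub ht1))
    (hout t1 (hsub ht1) (hIcc t1 (left_mem_Icc.mpr ht1.2)))
    (fun i hi => le_trans (hIcc t1 (left_mem_Icc.mpr ht1.2) i hi) hρC)
  have hsum : ρ0 ≤ ∑ i, res Z (x t1) i := by
    refine le_trans hbig ?_
    exact Finset.single_le_sum (f := fun i => res Z (x t1) i)
      (fun j _ => (hpos t1 (hsub ht1) j).le) (Finset.mem_univ (⟨i1, hi1⟩ : {i // i ∈ Z}))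
  obtain ⟨imax, himax, himax'⟩ := Z.exists_max_image (fun i => x t i) ⟨i1, hi1⟩
  have hlow := Vsup_small_lower D (hpos t ht) (hpos t ht imax)
    (le_trans (hsmall imax himax).le hρS) himax'
  have hn : (0 : ℝ) < Z.card := by exact_mod_cast Finset.card_pos.mpr ⟨i1, hi1⟩
  have h1 : ρ0 / (3 * (Z.card : ℝ)) ≤ √(x t imax) := by
    rw [div_le_iff₀ (by positivity)]
    linarith
  have h2 := hcon imax himax
  have h3 : (ρ0 / (3 * (Z.card : ℝ))) ^ 2 ≤ x t imax := by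
    have := pow_le_pow_left₀ (by positivity) h1 2
    rwa [sq_sqrt (hpos t ht imax).le] at this
  linarith [min_le_right ρ0 ((ρ0 / (3 * (Z.card : ℝ))) ^ 2)]

end

end Vale.Agent.P072
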